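import Mathlib

namespace Vale.Agent.P047b

/-- The sign `±1` of a bit; the cube `{-1,1}^n` is `Fin n → Bool`. -/
def sg (b : Bool) : ℝ := if b then 1 else -1

/-- The Fourier coefficient `E[f(X) ∏_{i ∈ S} X_i]` with `X` uniform on the cube. -/
noncomputable def coeff {n : ℕ} (f : (Fin n → Bool) → ℝ) (S : Finset (Fin n)) : ℝ :=
  (∑ x : Fin n → Bool, f x * ∏ i ∈ S, sg (x i)) / 2 ^ n

open Classical in
/-- The degree: the largest `|S|` with a nonzero Fourier coefficient. -/
noncomputable def deg {n : ℕ} (f : (Fin n → Bool) → ℝ) : ℕ :=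
  (Finset.univ.filter (fun S : Finset (Fin n) => coeff f S ≠ 0)).sup Finset.card

end Vale.Agent.P047b
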