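import Mathlib
import Vale.Agent.P047b.Defs

namespace Vale.Agent.P047b

open Finset

/-- uniform average over a finite type -/
noncomputable def av {α : Type*} [Fintype α] (f : α → ℝ) : ℝ := (∑ x, f x) / Fintype.card α

section av
variable {α β : Type*} [Fintype α] [Fintype β]

lemma av_add (f g : α → ℝ) : av (fun x => f x + g x) = av f + av g := by
  simp [av, Finset.sum_add_distrib, add_div]

lemma av_sub (f g : α → ℝ) : av (fun x => f x - g x) = av f - av g := by
  simp [av, Finset.sum_sub_distrib, sub_div]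

lemma av_const_mul (c : ℝ) (f : α → ℝ) : av (fun x => c * f x) = c * av f := by
  simp [av, ← Finset.mul_sum, mul_div_assoc]

lemma av_mul_const (c : ℝ) (f : α → ℝ) : av (fun x => f x * c) = av f * c := by
  simp [av, ← Finset.sum_mul]; ring

lemma av_sum {κ : Type*} (s : Finset κ) (f : κ → α → ℝ) :
    av (fun x => ∑ i ∈ s, f i x) = ∑ i ∈ s, av (f i) := by
  simp only [av]
  rw [Finset.sum_comm, Finset.sum_div]

lemma av_const [Nonempty α] (c : ℝ) : av (fun _ : α => c) = c := by
  have : (Fintype.card α : ℝ) ≠ 0 := by exact_mod_cast Fintype.card_ne_zero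
  simp [av]

lemma av_mono {f g : α → ℝ} (h : ∀ x, f x ≤ g x) : av f ≤ av g :=
  div_le_div_of_nonneg_right (Finset.sum_le_sum fun x _ => h x) (Nat.cast_nonneg _)

lemma av_nonneg {f : α → ℝ} (h : ∀ x, 0 ≤ f x) : 0 ≤ av f :=
  div_nonneg (Finset.sum_nonneg fun x _ => h x) (Nat.cast_nonneg _)

lemma av_congr {f g : α → ℝ} (h : ∀ x, f x = g x) : av f = av g := by
  rw [show f = g from funext h]

lemma av_equiv (e : α ≃ β) (f : β → ℝ) : av (fun x => f (e x)) = av f := by
  simp only [av]
  rw [Equiv.sum_comp e f, Fintype.card_congr e]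

lemma av_pi {κ : Type*} [Fintype κ] [DecidableEq κ] (f : κ → α → ℝ) :
    av (fun y : κ → α => ∏ i, f i (y i)) = ∏ i, av (f i) := by
  simp only [av]
  rw [Finset.prod_div_distrib, Finset.prod_univ_sum]
  simp

lemma av_resample {κ : Type*} [Fintype κ] [DecidableEq κ] [Nonempty α] (j : κ)
    (F : (κ → α) → ℝ) :
    av F = av (fun y : κ → α => av (fun ω => F (Function.update y j ω))) := by
  have hc : (Fintype.card α : ℝ) ≠ 0 := by exact_mod_cast Fintype.card_ne_zero
  let e : (κ → α) × α ≃ (κ → α) × α :=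
    { toFun := fun p => (Function.update p.1 j p.2, p.1 j)
      invFun := fun p => (Function.update p.1 j p.2, p.1 j)
      left_inv := fun p => by simp
      right_inv := fun p => by simp }
  have h1 : ∑ p : (κ → α) × α, F (e p).1 = ∑ p : (κ → α) × α, F p.1 :=
    Equiv.sum_comp e (fun p => F p.1)
  simp only [Fintype.sum_prod_type, e, Equiv.coe_fn_mk, Finset.sum_const, Finset.card_univ,
    nsmul_eq_mul] at h1
  simp only [av]
  rw [← Finset.sum_div, h1, ← Finset.mul_sum]
  field_simp

end av

section cube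
variable {ι : Type*} [DecidableEq ι]

/-- the character of `S` -/
def chi (S : Finset ι) (x : ι → Bool) : ℝ := ∏ i ∈ S, sg (x i)

/-- functions of degree at most `d` -/
def V (ι : Type*) (d : ℕ) : Submodule ℝ ((ι → Bool) → ℝ) :=
  Submodule.span ℝ {g | ∃ S : Finset ι, S.card ≤ d ∧ g = chi S}

lemma sg_mul_self (b : Bool) : sg b * sg b = 1 := by cases b <;> simp [sg]

lemma sg_not (b : Bool) : sg (!b) = -sg b := by cases b <;> simp [sg]

lemma chi_mul (S T : Finset ι) (x : ι → Bool) : chi S x * chi T x = chi (symmDiff S T) x := by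
  have h1 : S = (S \ T) ∪ (S ∩ T) := (sdiff_union_inter S T).symm
  have h2 : T = (T \ S) ∪ (S ∩ T) := by rw [inter_comm]; exact (sdiff_union_inter T S).symm
  have h3 : symmDiff S T = (S \ T) ∪ (T \ S) := rfl
  have e1 : chi S x = chi (S \ T) x * chi (S ∩ T) x := by
    unfold chi
    rw [← Finset.prod_union (disjoint_sdiff_inter S T), ← h1]
  have e2 : chi T x = chi (T \ S) x * chi (S ∩ T) x := by
    unfold chi
    rw [← Finset.prod_union (by rw [inter_comm]; exact disjoint_sdiff_inter T S), ← h2]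
  have e3 : chi (symmDiff S T) x = chi (S \ T) x * chi (T \ S) x := by
    unfold chi
    rw [h3, Finset.prod_union disjoint_sdiff_sdiff]
  have e4 : chi (S ∩ T) x * chi (S ∩ T) x = 1 := by
    unfold chi
    rw [← Finset.prod_mul_distrib]
    simp [sg_mul_self]
  rw [e1, e2, e3]
  linear_combination (chi (S \ T) x * chi (T \ S) x) * e4

omit [DecidableEq ι] in
lemma chi_mem {S : Finset ι} {d : ℕ} (h : S.card ≤ d) : chi S ∈ V ι d :=
  Submodule.subset_span ⟨S, h, rfl⟩

omit [DecidableEq ι] in
lemma V_mono {a b : ℕ} (h : a ≤ b) {f : (ι → Bool) → ℝ} (hf : f ∈ V ι a) : f ∈ V ι b :=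
  Submodule.span_mono (by
    rintro _ ⟨S, hS, e⟩
    exact ⟨S, hS.trans h, e⟩) hf

omit [DecidableEq ι] in
lemma V_const (c : ℝ) (d : ℕ) : (fun _ : ι → Bool => c) ∈ V ι d := by
  have := (V ι d).smul_mem c (chi_mem (S := (∅ : Finset ι)) (d := d) (by simp))
  convert this using 1
  ext x
  simp [chi]

lemma V_mul {a b : ℕ} {f g : (ι → Bool) → ℝ} (hf : f ∈ V ι a) (hg : g ∈ V ι b) :
    (fun x => f x * g x) ∈ V ι (a + b) := by
  change f * g ∈ V ι (a + b)
  induction hf using Submodule.span_induction with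
  | mem f hf =>
    obtain ⟨S, hS, rfl⟩ := hf
    induction hg using Submodule.span_induction with
    | mem g hg =>
      obtain ⟨T, hT, rfl⟩ := hg
      have : chi S * chi T = chi (symmDiff S T) := funext (chi_mul S T)
      rw [this]
      apply chi_mem
      calc (symmDiff S T).card ≤ (S ∪ T).card := card_le_card symmDiff_subset_union
        _ ≤ S.card + T.card := card_union_le _ _
        _ ≤ _ := add_le_add hS hT
    | zero => simp
    | add g g' _ _ h1 h2 => rw [mul_add]; exact add_mem h1 h2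
    | smul c g _ h1 => rw [mul_smul_comm]; exact Submodule.smul_mem _ c h1
  | zero => simp
  | add f f' _ _ h1 h2 => rw [add_mul]; exact add_mem h1 h2
  | smul c f _ h1 => rw [smul_mul_assoc]; exact Submodule.smul_mem _ c h1

lemma V_prod {κ : Type*} (T : Finset κ) (d : ℕ) (f : κ → (ι → Bool) → ℝ)
    (hf : ∀ j ∈ T, f j ∈ V ι d) : (fun x => ∏ j ∈ T, f j x) ∈ V ι (T.card * d) := by
  classical
  induction T using Finset.induction_on with
  | empty => simpa using V_const 1 0
  | insert j T hj ih =>
    simp only [Finset.prod_insert hj, Finset.card_insert_of_notMem hj]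
    have := V_mul (hf j (mem_insert_self _ _)) (ih fun i hi => hf i (mem_insert_of_mem hi))
    exact V_mono (by rw [add_mul]; omega) this

omit [DecidableEq ι] in
lemma V_sum {κ : Type*} (T : Finset κ) (d : ℕ) (f : κ → (ι → Bool) → ℝ)
    (hf : ∀ j ∈ T, f j ∈ V ι d) : (fun x => ∑ j ∈ T, f j x) ∈ V ι d := by
  have := (V ι d).sum_mem hf
  convert this using 1
  ext x
  simp

omit [DecidableEq ι] in
lemma V_add {d : ℕ} {f g : (ι → Bool) → ℝ} (hf : f ∈ V ι d) (hg : g ∈ V ι d) :
    (fun x => f x + g x) ∈ V ι d := add_mem hf hg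

omit [DecidableEq ι] in
lemma V_sub {d : ℕ} {f g : (ι → Bool) → ℝ} (hf : f ∈ V ι d) (hg : g ∈ V ι d) :
    (fun x => f x - g x) ∈ V ι d := sub_mem hf hg

omit [DecidableEq ι] in
lemma V_smul {d : ℕ} (c : ℝ) {f : (ι → Bool) → ℝ} (hf : f ∈ V ι d) :
    (fun x => c * f x) ∈ V ι d := (V ι d).smul_mem c hf

omit [DecidableEq ι] in
/-- substitution of functions of degree at most `e` for the bits -/
lemma V_subst {ι' : Type*} [DecidableEq ι'] {d e : ℕ} {f : (ι → Bool) → ℝ} (hf : f ∈ V ι d)
    (g : (ι' → Bool) → ι → Bool) (hg : ∀ i, (fun x => sg (g x i)) ∈ V ι' e) :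
    (fun x => f (g x)) ∈ V ι' (d * e) := by
  induction hf using Submodule.span_induction with
  | mem f hf =>
    obtain ⟨S, hS, rfl⟩ := hf
    exact V_mono (Nat.mul_le_mul_right _ hS) (V_prod S e (fun i x => sg (g x i)) fun i _ => hg i)
  | zero => exact V_const 0 _
  | add f f' _ _ h1 h2 => exact V_add h1 h2
  | smul c f _ h1 => exact V_smul c h1

omit [DecidableEq ι] in
lemma V_comap {ι' : Type*} [DecidableEq ι'] {d : ℕ} {f : (ι → Bool) → ℝ} (hf : f ∈ V ι d)
    (e : ι → ι') : (fun x : ι' → Bool => f (fun i => x (e i))) ∈ V ι' d := by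
  have := V_subst (e := 1) hf (fun (x : ι' → Bool) i => x (e i)) (fun i => by
    have := chi_mem (S := ({e i} : Finset ι')) (d := 1) (by simp)
    convert this using 1
    ext x
    simp [chi])
  simpa using this

lemma av_sg : av sg = 0 := by simp [av, sg]

variable [Fintype ι]

lemma av_chi {S : Finset ι} (hS : S.Nonempty) : av (chi S) = 0 := by
  obtain ⟨j, hj⟩ := hS
  have : chi S = fun x : ι → Bool => ∏ i, (fun i b => if i ∈ S then sg b else 1) i (x i) := by
    ext x
    simp [chi, Finset.prod_ite_mem]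
  rw [this, av_pi (fun i b => if i ∈ S then sg b else 1)]
  apply Finset.prod_eq_zero (mem_univ j)
  simpa [hj] using av_sg

lemma av_mul_chi {d : ℕ} {f : (ι → Bool) → ℝ} (hf : f ∈ V ι d) {S : Finset ι} (hS : d < S.card) :
    av (fun x => f x * chi S x) = 0 := by
  induction hf using Submodule.span_induction with
  | mem f hf =>
    obtain ⟨T, hT, rfl⟩ := hf
    simp only [chi_mul]
    apply av_chi
    rw [Finset.nonempty_iff_ne_empty]
    intro h
    have : T = S := symmDiff_eq_bot.1 h
    subst this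
    omega
  | zero => simp [av]
  | add f f' _ _ h1 h2 => simp only [Pi.add_apply, add_mul, av_add, h1, h2, add_zero]
  | smul c f _ h1 => simp only [Pi.smul_apply, smul_eq_mul, mul_assoc, av_const_mul, h1, mul_zero]

/-- the sum of the bits -/
def tot (x : ι → Bool) : ℝ := ∑ i, sg (x i)

lemma av_tot : av (tot : (ι → Bool) → ℝ) = 0 := by
  unfold tot
  rw [av_sum]
  apply Finset.sum_eq_zero
  intro i _
  have := av_chi (S := ({i} : Finset ι)) (by simp)
  rw [← this]
  exact av_congr fun x => by simp [chi]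

end cube

end Vale.Agent.P047b
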