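import Mathlib
import Vale.Agent.P047b.Cube

namespace Vale.Agent.P047b

open Finset

/-- every function of `Z` has degree at most `d` -/
def LowDeg {ι : Type*} (Z : (ι → Bool) → ℝ) (d : ℕ) : Prop :=
  ∀ φ : ℝ → ℝ, (fun x => φ (Z x)) ∈ V ι d

/-- `Z` is the conditional expectation of the sum of the bits given `Z` -/
def Cond {ι : Type*} [Fintype ι] [DecidableEq ι] (Z : (ι → Bool) → ℝ) : Prop :=
  ∀ φ : ℝ → ℝ, av (fun x => φ (Z x) * tot x) = av (fun x => φ (Z x) * Z x)

/-- block number `j` -/
def blk {κ ι : Type*} (x : κ × ι → Bool) (j : κ) : ι → Bool := fun i => x (j, i)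

section
variable {ι κ : Type*} [Fintype ι] [DecidableEq ι] [Fintype κ] [DecidableEq κ]

lemma av_blk (F : (κ → ι → Bool) → ℝ) :
    av (fun x : κ × ι → Bool => F (blk x)) = av F :=
  av_equiv (Equiv.curry κ ι Bool) F

omit [DecidableEq ι] [DecidableEq κ] in
lemma tot_blk (x : κ × ι → Bool) : tot x = ∑ j, tot (blk x j) := by
  simp only [tot, blk, Fintype.sum_prod_type]

lemma Cond.av_eq_zero {Z : (ι → Bool) → ℝ} (h : Cond Z) : av Z = 0 := by
  have := h (fun _ => 1)
  simp only [one_mul] at this
  rw [← av_tot (ι := ι)]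
  exact this.symm

omit [Fintype κ] in
lemma lowdeg_blocks {Z : (ι → Bool) → ℝ} {d : ℕ} (hZ : LowDeg Z d) (T : Finset κ) :
    ∀ G : (κ → ℝ) → ℝ, (∀ w w' : κ → ℝ, (∀ j ∈ T, w j = w' j) → G w = G w') →
      (fun x : κ × ι → Bool => G (fun j => Z (blk x j))) ∈ V (κ × ι) (T.card * d) := by
  classical
  induction T using Finset.induction_on with
  | empty =>
    intro G hG
    have : (fun x : κ × ι → Bool => G (fun j => Z (blk x j))) = fun _ => G 0 :=
      funext fun x => hG _ _ (by simp)
    rw [this]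
    exact V_const _ _
  | insert j T hj ih =>
    intro G hG
    have e : (fun x : κ × ι → Bool => G (fun j => Z (blk x j))) =
        fun x => ∑ r ∈ univ.image Z, (if Z (blk x j) = r then (1 : ℝ) else 0) *
          G (Function.update (fun j => Z (blk x j)) j r) := by
      ext x
      rw [Finset.sum_eq_single (Z (blk x j))]
      · simp
      · intro b _ hb
        simp [hb.symm]
      · intro h
        exact absurd (mem_image_of_mem Z (mem_univ _)) h
    rw [e]
    apply V_sum
    intro r _
    have h1 : (fun x : κ × ι → Bool => if Z (blk x j) = r then (1 : ℝ) else 0) ∈ V (κ × ι) d :=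
      V_comap (hZ (fun u => if u = r then 1 else 0)) (fun i => (j, i))
    have h2 := ih (fun w => G (Function.update w j r)) (fun w w' hw => hG _ _ (by
      intro i hi
      rcases mem_insert.1 hi with rfl | hi
      · simp
      · have : i ≠ j := fun h => hj (h ▸ hi)
        simp [Function.update_of_ne this, hw i hi]))
    refine V_mono ?_ (V_mul h1 h2)
    rw [card_insert_of_notMem hj, add_mul]
    omega

lemma lowdeg_miss {Z : (ι → Bool) → ℝ} {d : ℕ} (hZ : LowDeg Z d) (j : κ)
    (G : (κ → ℝ) → ℝ) (hG : ∀ w w' : κ → ℝ, (∀ i, i ≠ j → w i = w' i) → G w = G w') :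
    (fun x : κ × ι → Bool => G (fun j => Z (blk x j))) ∈ V (κ × ι) ((Fintype.card κ - 1) * d) := by
  have := lowdeg_blocks hZ (univ.erase j) G
    (fun w w' h => hG w w' fun i hi => h i (by simp [hi]))
  rwa [card_erase_of_mem (mem_univ j), card_univ] at this

lemma cond_blocks {Z : (ι → Bool) → ℝ} (hZ : Cond Z) (G : (κ → ℝ) → ℝ) :
    av (fun x : κ × ι → Bool => G (fun j => Z (blk x j)) * tot x) =
      av (fun y : κ → ι → Bool => G (fun j => Z (y j)) * ∑ j, Z (y j)) := by
  simp only [tot_blk]
  rw [av_blk (fun y => G (fun j => Z (y j)) * ∑ j, tot (y j))]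
  simp only [Finset.mul_sum, av_sum]
  refine Finset.sum_congr rfl fun j _ => ?_
  rw [av_resample j, av_resample j (fun y : κ → ι → Bool => G (fun j => Z (y j)) * Z (y j))]
  refine av_congr fun y => ?_
  have e : ∀ ω, (fun i => Z (Function.update y j ω i)) =
      Function.update (fun i => Z (y i)) j (Z ω) := by
    intro ω
    ext i
    by_cases h : i = j
    · subst h; simp
    · simp [Function.update_of_ne h]
  simp only [e, Function.update_self]
  exact hZ (fun r => G (Function.update (fun i => Z (y i)) j r))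

lemma exists_cond {Y : (ι → Bool) → ℝ} {d : ℕ} (hY : LowDeg Y d) :
    ∃ Z : (ι → Bool) → ℝ, LowDeg Z d ∧ Cond Z ∧
      2 * av (fun x => Y x * tot x) - av (fun x => Y x ^ 2) ≤ av (fun x => Z x ^ 2) := by
  classical
  let c : ℝ → ℝ := fun r => (∑ x ∈ univ.filter (fun x => Y x = r), tot x) /
    ((univ.filter (fun x => Y x = r)).card : ℝ)
  have key : ∀ ψ : ℝ → ℝ, av (fun x => ψ (Y x) * tot x) = av (fun x => ψ (Y x) * c (Y x)) := by
    intro ψ
    unfold av
    congr 1
    rw [← Finset.sum_fiberwise_of_maps_to (s := univ) (t := univ.image Y) (g := Y)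
        (fun x hx => mem_image_of_mem Y hx),
      ← Finset.sum_fiberwise_of_maps_to (s := univ) (t := univ.image Y) (g := Y)
        (fun x hx => mem_image_of_mem Y hx) (f := fun x => ψ (Y x) * c (Y x))]
    refine Finset.sum_congr rfl fun r hr => ?_
    have hpos : ((univ.filter (fun x => Y x = r)).card : ℝ) ≠ 0 := by
      obtain ⟨x, _, hx⟩ := mem_image.1 hr
      have : (univ.filter (fun x => Y x = r)).Nonempty := ⟨x, by simp [hx]⟩
      exact_mod_cast this.card_pos.ne'
    rw [Finset.sum_congr rfl (g := fun x => ψ r * tot x)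
        (fun x hx => by rw [(mem_filter.1 hx).2]),
      Finset.sum_congr rfl (f := fun x => ψ (Y x) * c (Y x)) (g := fun _ => ψ r * c r)
        (fun x hx => by rw [(mem_filter.1 hx).2]),
      ← Finset.mul_sum, Finset.sum_const, nsmul_eq_mul]
    simp only [c]
    field_simp
  refine ⟨fun x => c (Y x), fun φ => hY (fun r => φ (c r)), fun φ => key (fun r => φ (c r)), ?_⟩
  rw [key (fun r => r), ← av_const_mul, ← av_sub]
  apply av_mono
  intro x
  nlinarith [sq_nonneg (Y x - c (Y x))]

end

section moments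
variable {Ω κ : Type*} [Fintype Ω] [Fintype κ] [DecidableEq κ]

lemma av_prod_mul (p : κ → Ω → ℝ) (g : Ω → ℝ) (i : κ) :
    av (fun y : κ → Ω => (∏ l, p l (y l)) * g (y i)) =
      av (fun ω => p i ω * g ω) * ∏ l ∈ univ.erase i, av (p l) := by
  have := av_pi (fun l ω => p l ω * (if l = i then g ω else 1))
  simp only [Finset.prod_mul_distrib, Finset.prod_ite_eq', mem_univ, if_true] at this
  rw [this, ← Finset.mul_prod_erase _ _ (mem_univ i)]
  simp only [if_true]
  congr 1
  refine Finset.prod_congr rfl fun l hl => ?_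
  simp [(mem_erase.1 hl).1]

lemma second_moment (p r : κ → Ω → ℝ) (i₀ : κ)
    (h : ∀ i, i ≠ i₀ → av (fun ω => p i ω * r i ω) = 0) :
    av (fun y : κ → Ω => (∏ l, p l (y l)) * (∑ i, r i (y i)) ^ 2) =
      ∑ i, av (fun ω => p i ω * r i ω ^ 2) * ∏ l ∈ univ.erase i, av (p l) := by
  simp only [sq, Finset.sum_mul_sum]
  simp only [Finset.mul_sum, av_sum]
  refine Finset.sum_congr rfl fun i _ => ?_
  rw [Finset.sum_eq_single i]
  · exact av_prod_mul p (fun ω => r i ω * r i ω) i
  · intro i' _ hi'
    have := av_pi (fun l ω => p l ω * ((if l = i then r i ω else 1) * (if l = i' then r i' ω else 1)))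
    simp only [Finset.prod_mul_distrib, Finset.prod_ite_eq', mem_univ, if_true] at this
    rw [this]
    by_cases h0 : i = i₀
    · apply Finset.prod_eq_zero (mem_univ i')
      simpa [hi'] using h i' (h0 ▸ hi')
    · apply Finset.prod_eq_zero (mem_univ i)
      simpa [Ne.symm hi'] using h i h0
  · simp

lemma av_sum_sq [Nonempty Ω] (W : Ω → ℝ) (h0 : av W = 0) :
    av (fun y : κ → Ω => (∑ i, W (y i)) ^ 2) = Fintype.card κ * av (fun ω => W ω ^ 2) := by
  rcases isEmpty_or_nonempty κ with hκ | ⟨⟨i₀⟩⟩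
  · simp [av]
  have := second_moment (fun (_ : κ) (_ : Ω) => (1 : ℝ)) (fun _ => W) i₀
    (fun _ _ => by simpa using h0)
  simpa [av_const] using this

end moments

/-- there is a scheme of degree `d` and second moment `J` -/
def Sch (d : ℕ) (J : ℝ) : Prop :=
  ∃ (ι : Type) (_ : Fintype ι) (_ : DecidableEq ι) (Z : (ι → Bool) → ℝ),
    LowDeg Z d ∧ Cond Z ∧ av (fun x => Z x ^ 2) = J

section
variable {ι κ : Type*} [Fintype ι] [DecidableEq ι] [Fintype κ] [DecidableEq κ]

lemma lowdeg_sum {Z : (ι → Bool) → ℝ} {d : ℕ} (hZ : LowDeg Z d) :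
    LowDeg (fun x : κ × ι → Bool => ∑ j, Z (blk x j)) (Fintype.card κ * d) := fun φ =>
  lowdeg_blocks hZ univ (fun w => φ (∑ j, w j))
    (fun w w' h => by rw [show w = w' from funext fun j => h j (mem_univ j)])

lemma cond_sum {Z : (ι → Bool) → ℝ} (hZ : Cond Z) :
    Cond (fun x : κ × ι → Bool => ∑ j, Z (blk x j)) := fun φ => by
  rw [cond_blocks hZ (fun w => φ (∑ j, w j))]
  exact (av_blk (fun y => φ (∑ j, Z (y j)) * ∑ j, Z (y j))).symm

end

lemma sch_one : Sch 1 1 := by
  refine ⟨Unit, inferInstance, inferInstance, fun x => sg (x ()), ?_, ?_, ?_⟩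
  · intro φ
    have h1 : (fun x : Unit → Bool => sg (x ())) ∈ V Unit 1 := by
      have := chi_mem (S := ({()} : Finset Unit)) (d := 1) (by simp)
      convert this using 1
      ext x
      simp [chi]
    have := V_add (V_const ((φ 1 + φ (-1)) / 2) 1) (V_smul ((φ 1 - φ (-1)) / 2) h1)
    convert this using 1
    ext x
    cases hx : x () <;> simp [sg, hx] <;> ring
  · intro φ
    simp [tot]
  · simp only [sq, sg_mul_self, av_const]

end Vale.Agent.P047b
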