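import Mathlib
import Vale.Agent.P047b.Scheme

namespace Vale.Agent.P047b

open Finset

open Classical in
/-- indicator of a proposition -/
noncomputable def ind (p : Prop) : ℝ := if p then 1 else 0

lemma ind_pos {p : Prop} (h : p) : ind p = 1 := if_pos h
lemma ind_neg {p : Prop} (h : ¬ p) : ind p = 0 := if_neg h
lemma ind_nonneg (p : Prop) : 0 ≤ ind p := by unfold ind; split_ifs <;> norm_num

variable {μ : Type*} [Fintype μ] [DecidableEq μ]

open Classical in
/-- the output of the gadget -/
noncomputable def gad (a : ℝ → μ) (B : μ → Set ℝ) (s : ℝ) (w : Option μ → ℝ) : ℝ :=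
  if ∀ i, w (some i) ∈ B i then (∑ l, w l) - w none
  else if ∀ i, i ≠ a (w none) → w (some i) ∈ B i then s
  else (∑ l, w l) - w (some (a (w none)))

/-- factors of the indicator of the event that all cells are hit -/
noncomputable def p0 (B : μ → Set ℝ) : Option μ → ℝ → ℝ
  | none, _ => 1
  | some i, u => ind (u ∈ B i)

/-- factors of the indicator of the event that block zero points to `j` -/
noncomputable def pa (a : ℝ → μ) (j : μ) : Option μ → ℝ → ℝ
  | none, u => ind (a u = j)
  | some _, _ => 1

/-- factors of the indicator of the event `L j` -/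
noncomputable def pj (a : ℝ → μ) (B : μ → Set ℝ) (j : μ) : Option μ → ℝ → ℝ
  | none, u => ind (a u = j)
  | some i, u => if i = j then 1 else ind (u ∈ B i)

omit [DecidableEq μ] in
lemma prod_p0 (B : μ → Set ℝ) (w : Option μ → ℝ) :
    ∏ l, p0 B l (w l) = ind (∀ i, w (some i) ∈ B i) := by
  rw [Fintype.prod_option]
  simp only [p0, one_mul]
  by_cases h : ∀ i, w (some i) ∈ B i
  · simp [ind_pos, h]
  · rw [ind_neg h]
    push Not at h
    obtain ⟨i, hi⟩ := h
    exact Finset.prod_eq_zero (mem_univ i) (ind_neg hi)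

omit [DecidableEq μ] in
lemma prod_pa (a : ℝ → μ) (j : μ) (w : Option μ → ℝ) :
    ∏ l, pa a j l (w l) = ind (a (w none) = j) := by
  rw [Fintype.prod_option]
  simp [pa]

lemma prod_pj (a : ℝ → μ) (B : μ → Set ℝ) (j : μ) (w : Option μ → ℝ) :
    ∏ l, pj a B j l (w l) = ind (a (w none) = j) * ind (∀ i, i ≠ j → w (some i) ∈ B i) := by
  rw [Fintype.prod_option]
  simp only [pj]
  congr 1
  by_cases h : ∀ i, i ≠ j → w (some i) ∈ B i
  · rw [ind_pos h]
    apply Finset.prod_eq_one
    intro i _
    split_ifs with hi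
    · rfl
    · exact ind_pos (h i hi)
  · rw [ind_neg h]
    push Not at h
    obtain ⟨i, hi, hi'⟩ := h
    exact Finset.prod_eq_zero (mem_univ i) (by rw [if_neg hi, ind_neg hi'])

lemma sum_ind (c : μ) (f : μ → ℝ) : ∑ j, ind (c = j) * f j = f c := by
  rw [Finset.sum_eq_single c]
  · simp [ind_pos]
  · intro b _ hb
    simp [ind_neg (Ne.symm hb)]
  · simp

lemma gad_decomp (a : ℝ → μ) (B : μ → Set ℝ) (s : ℝ) (w : Option μ → ℝ) (Φ : ℝ → ℝ) :
    Φ (gad a B s w) = (∏ l, p0 B l (w l)) * Φ ((∑ l, w l) - w none) +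
      ((∑ j, (∏ l, pj a B j l (w l)) * Φ s) - (∏ l, p0 B l (w l)) * Φ s) +
      ∑ j, ((∏ l, pa a j l (w l)) * Φ ((∑ l, w l) - w (some j)) -
        (∏ l, pj a B j l (w l)) * Φ ((∑ l, w l) - w (some j))) := by
  simp only [prod_p0, prod_pa, prod_pj, Finset.sum_sub_distrib, mul_assoc, sum_ind]
  unfold gad
  by_cases h1 : ∀ i, w (some i) ∈ B i
  · rw [if_pos h1, ind_pos h1, ind_pos (fun i _ => h1 i)]
    ring
  · rw [if_neg h1, ind_neg h1]
    by_cases h2 : ∀ i, i ≠ a (w none) → w (some i) ∈ B i
    · rw [if_pos h2, ind_pos h2]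
      ring
    · rw [if_neg h2, ind_neg h2]
      ring

lemma sum_sub_congr {κ : Type*} [Fintype κ] [DecidableEq κ] (j : κ) (w w' : κ → ℝ)
    (h : ∀ i, i ≠ j → w i = w' i) : (∑ l, w l) - w j = (∑ l, w' l) - w' j := by
  rw [← Finset.add_sum_erase _ _ (mem_univ j), ← Finset.add_sum_erase _ w' (mem_univ j),
    Finset.sum_congr rfl (fun i hi => h i (mem_erase.1 hi).1)]
  ring

lemma lowdeg_gad {ι : Type*} [Fintype ι] [DecidableEq ι] {W : (ι → Bool) → ℝ} {d : ℕ}
    (hW : LowDeg W d) (a : ℝ → μ) (B : μ → Set ℝ) (s : ℝ) :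
    LowDeg (fun x : Option μ × ι → Bool => gad a B s (fun l => W (blk x l)))
      (Fintype.card μ * d) := by
  intro φ
  have hc : Fintype.card μ = Fintype.card (Option μ) - 1 := by simp
  have c0 : ∀ w w' : Option μ → ℝ, (∀ i, i ≠ none → w i = w' i) →
      ∏ l, p0 B l (w l) = ∏ l, p0 B l (w' l) := by
    intro w w' h
    simp only [prod_p0, h (some _) (Option.some_ne_none _)]
  have cj : ∀ j, ∀ w w' : Option μ → ℝ, (∀ i, i ≠ some j → w i = w' i) →
      ∏ l, pj a B j l (w l) = ∏ l, pj a B j l (w' l) := by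
    intro j w w' h
    refine Finset.prod_congr rfl fun l _ => ?_
    by_cases hl : l = some j
    · subst hl; simp [pj]
    · rw [h l hl]
  have ca : ∀ j, ∀ w w' : Option μ → ℝ, (∀ i, i ≠ some j → w i = w' i) →
      ∏ l, pa a j l (w l) = ∏ l, pa a j l (w' l) := by
    intro j w w' h
    simp only [prod_pa, h none (Option.some_ne_none _).symm]
  simp only [gad_decomp a B s _ φ]
  rw [hc]
  refine V_add (V_add ?_ (V_sub (V_sum _ _ _ fun j _ => ?_) ?_)) (V_sum _ _ _ fun j _ =>
    V_sub ?_ ?_)
  · exact lowdeg_miss hW none (fun w => (∏ l, p0 B l (w l)) * φ ((∑ l, w l) - w none))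
      (fun w w' h => by rw [c0 w w' h, sum_sub_congr none w w' h])
  · exact lowdeg_miss hW (some j) (fun w => (∏ l, pj a B j l (w l)) * φ s)
      (fun w w' h => by rw [cj j w w' h])
  · exact lowdeg_miss hW none (fun w => (∏ l, p0 B l (w l)) * φ s)
      (fun w w' h => by rw [c0 w w' h])
  · exact lowdeg_miss hW (some j) (fun w => (∏ l, pa a j l (w l)) * φ ((∑ l, w l) - w (some j)))
      (fun w w' h => by rw [ca j w w' h, sum_sub_congr (some j) w w' h])
  · exact lowdeg_miss hW (some j)
      (fun w => (∏ l, pj a B j l (w l)) * φ ((∑ l, w l) - w (some j)))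
      (fun w w' h => by rw [cj j w w' h, sum_sub_congr (some j) w w' h])

lemma prod_erase_none (f : Option μ → ℝ) :
    ∏ l ∈ univ.erase none, f l = ∏ i, f (some i) := by
  have h1 := Finset.mul_prod_erase univ (Function.update f none 1) (mem_univ none)
  rw [Fintype.prod_option] at h1
  simp only [Function.update_self, one_mul, ne_eq, reduceCtorEq, not_false_eq_true,
    Function.update_of_ne] at h1
  rw [← h1]
  exact Finset.prod_congr rfl fun l hl => by rw [Function.update_of_ne (mem_erase.1 hl).1]

lemma prod_erase_some (f : Option μ → ℝ) (j : μ) :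
    ∏ l ∈ univ.erase (some j), f l = f none * ∏ i ∈ univ.erase j, f (some i) := by
  have h1 := Finset.mul_prod_erase univ (Function.update f (some j) 1) (mem_univ (some j))
  rw [Fintype.prod_option, ← Finset.mul_prod_erase univ _ (mem_univ j)] at h1
  simp only [Function.update_self, one_mul, ne_eq, reduceCtorEq, not_false_eq_true,
    Function.update_of_ne] at h1
  calc ∏ l ∈ univ.erase (some j), f l
      = ∏ l ∈ univ.erase (some j), Function.update f (some j) 1 l :=
        Finset.prod_congr rfl fun l hl => by rw [Function.update_of_ne (mem_erase.1 hl).1]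
    _ = _ := by
        rw [h1]
        congr 1
        exact Finset.prod_congr rfl fun i hi => by
          rw [Function.update_of_ne (by simpa using (mem_erase.1 hi).1)]

/-- The loss of the gadget. -/
lemma gad_loss {Ω : Type*} [Fintype Ω] [Nonempty Ω] (W : Ω → ℝ) (h0 : av W = 0)
    (h1 : av (fun ω => W ω ^ 2) = 1) (a : ℝ → μ) (B : μ → Set ℝ) (β π v : μ → ℝ)
    (hπ : ∀ i, av (fun ω => ind (W ω ∈ B i)) = π i) (hπ0 : ∀ i, 0 < π i)
    (hβ : ∀ i, av (fun ω => ind (W ω ∈ B i) * (W ω - β i)) = 0)
    (hv : ∀ i, av (fun ω => ind (W ω ∈ B i) * (W ω - β i) ^ 2) ≤ π i * v i)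
    (hv0 : ∀ i, 0 ≤ v i) :
    av (fun y : Option μ → Ω =>
      ((∑ l, W (y l)) - gad a B ((∑ i, β i) - 1) (fun l => W (y l))) ^ 2) ≤
      1 + (∏ i, π i) * ((∑ j, (av (fun ω => ind (a (W ω) = j) * (W ω + 1 - β j) ^ 2) +
        av (fun ω => ind (a (W ω) = j)) * ∑ i, v i) / π j) - 1) := by
  set s := (∑ i, β i) - 1 with hs
  set P := ∏ i, π i with hP
  have hP0 : 0 < P := Finset.prod_pos fun i _ => hπ0 i
  have hPj : ∀ j, ∏ i ∈ univ.erase j, π i = P / π j := by
    intro j
    rw [hP, ← Finset.mul_prod_erase univ π (mem_univ j)]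
    field_simp [(hπ0 j).ne']
  have e : ∀ y : Option μ → Ω,
      ((∑ l, W (y l)) - gad a B s (fun l => W (y l))) ^ 2 =
      (∏ l, p0 B l (W (y l))) * W (y none) ^ 2 +
      ((∑ j, (∏ l, pj a B j l (W (y l))) * ((∑ l, W (y l)) - s) ^ 2) -
        (∏ l, p0 B l (W (y l))) * ((∑ l, W (y l)) - s) ^ 2) +
      ∑ j, ((∏ l, pa a j l (W (y l))) * W (y (some j)) ^ 2 -
        (∏ l, pj a B j l (W (y l))) * W (y (some j)) ^ 2) := by
    intro y
    have := gad_decomp a B s (fun l => W (y l)) (fun u => ((∑ l, W (y l)) - u) ^ 2)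
    simpa only [sub_sub_cancel] using this
  simp only [e, av_add, av_sub, av_sum]
  set α : μ → ℝ := fun j => av (fun ω => ind (a (W ω) = j)) with hα
  have hα0 : ∀ j, 0 ≤ α j := fun j => av_nonneg fun _ => ind_nonneg _
  have hαs : ∑ j, α j = 1 := by
    rw [hα, ← av_sum]
    have : ∀ ω, ∑ j, ind (a (W ω) = j) = 1 := fun ω => by
      simpa using sum_ind (a (W ω)) (fun _ => 1)
    simp only [this, av_const]
  have t1 : av (fun y : Option μ → Ω => (∏ l, p0 B l (W (y l))) * W (y none) ^ 2) = P := by
    rw [av_prod_mul (fun l ω => p0 B l (W ω)) (fun ω => W ω ^ 2) none, prod_erase_none]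
    simp only [p0, one_mul, h1, hπ, hP]
  have t2 : ∀ j, av (fun y : Option μ → Ω => (∏ l, pa a j l (W (y l))) * W (y (some j)) ^ 2) =
      α j := by
    intro j
    rw [av_prod_mul (fun l ω => pa a j l (W ω)) (fun ω => W ω ^ 2) (some j), prod_erase_some]
    simp [pa, h1, av_const, hα]
  have pje : ∀ j, ∏ i ∈ univ.erase j, av (fun ω => pj a B j (some i) (W ω)) = P / π j := by
    intro j
    rw [← hPj]
    exact Finset.prod_congr rfl fun i hi => by simp [pj, (mem_erase.1 hi).1, hπ]
  have t3 : ∀ j, av (fun y : Option μ → Ω =>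
      (∏ l, pj a B j l (W (y l))) * W (y (some j)) ^ 2) = α j * (P / π j) := by
    intro j
    rw [av_prod_mul (fun l ω => pj a B j l (W ω)) (fun ω => W ω ^ 2) (some j), prod_erase_some,
      pje]
    simp [pj, h1, hα]
  have t4 : 2 * P ≤ av (fun y : Option μ → Ω =>
      (∏ l, p0 B l (W (y l))) * ((∑ l, W (y l)) - s) ^ 2) := by
    let r : Option μ → Ω → ℝ := fun l ω => match l with
      | none => W ω + 1
      | some i => W ω - β i
    have e1 : ∀ y : Option μ → Ω, (∑ l, W (y l)) - s = ∑ l, r l (y l) := by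
      intro y
      simp only [Fintype.sum_option, r, Finset.sum_sub_distrib, hs]
      ring
    simp only [e1]
    rw [second_moment (fun l ω => p0 B l (W ω)) r none (by
      rintro (_ | i) hi
      · exact absurd rfl hi
      · exact hβ i), Fintype.sum_option, prod_erase_none]
    have e2 : av (fun ω => p0 B none (W ω) * r none ω ^ 2) = 2 := by
      have : ∀ ω, p0 B none (W ω) * r none ω ^ 2 = W ω ^ 2 + 2 * W ω + 1 := fun ω => by
        simp only [p0, r]; ring
      simp only [this, av_add, av_const_mul, h1, h0, av_const]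
      norm_num
    rw [e2]
    simp only [p0, hπ]
    apply le_add_of_nonneg_right
    apply Finset.sum_nonneg
    intro i _
    apply mul_nonneg
    · exact av_nonneg fun ω => mul_nonneg (ind_nonneg _) (sq_nonneg _)
    · apply Finset.prod_nonneg
      rintro (_ | l) _
      · exact av_nonneg fun _ => zero_le_one
      · exact av_nonneg fun _ => ind_nonneg _
  have t5 : ∀ j, av (fun y : Option μ → Ω =>
      (∏ l, pj a B j l (W (y l))) * ((∑ l, W (y l)) - s) ^ 2) ≤
      (av (fun ω => ind (a (W ω) = j) * (W ω + 1 - β j) ^ 2) + α j + α j * ∑ i, v i) *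
        (P / π j) := by
    intro j
    let r : Option μ → Ω → ℝ := fun l ω => match l with
      | none => W ω + 1 - β j
      | some i => W ω - (if i = j then 0 else β i)
    have e1 : ∀ y : Option μ → Ω, (∑ l, W (y l)) - s = ∑ l, r l (y l) := by
      intro y
      have : ∑ i, (if i = j then 0 else β i) = (∑ i, β i) - β j := by
        rw [← Finset.add_sum_erase _ _ (mem_univ j), ← Finset.add_sum_erase _ β (mem_univ j),
          Finset.sum_congr rfl (g := β) (fun i hi => if_neg (mem_erase.1 hi).1)]
        simp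
      simp only [Fintype.sum_option, r, Finset.sum_sub_distrib, hs, this]
      ring
    simp only [e1]
    rw [second_moment (fun l ω => pj a B j l (W ω)) r none (by
      rintro (_ | i) hi
      · exact absurd rfl hi
      · by_cases hij : i = j
        · simpa [pj, r, hij] using h0
        · simpa [pj, r, hij] using hβ i), Fintype.sum_option, prod_erase_none,
      ← Finset.mul_prod_erase univ _ (mem_univ j), pje,
      ← Finset.add_sum_erase univ _ (mem_univ j), prod_erase_some, pje]
    have e2 : av (fun ω => pj a B j (some j) (W ω)) = 1 := by simp [pj, av_const]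
    have e3 : av (fun ω => pj a B j (some j) (W ω) * r (some j) ω ^ 2) = 1 := by
      simpa [pj, r] using h1
    have e4 : ∑ i ∈ univ.erase j, av (fun ω => pj a B j (some i) (W ω) * r (some i) ω ^ 2) *
        ∏ l ∈ univ.erase (some i), av (fun ω => pj a B j l (W ω)) ≤
        (α j * ∑ i, v i) * (P / π j) := by
      have hq : 0 ≤ P / π j := div_nonneg hP0.le (hπ0 j).le
      calc _ ≤ ∑ i ∈ univ.erase j, v i * (α j * (P / π j)) := by
            refine Finset.sum_le_sum fun i hi => ?_
            have hij := (mem_erase.1 hi).1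
            have e5 : π i * ∏ l ∈ univ.erase (some i), av (fun ω => pj a B j l (W ω)) =
                α j * (P / π j) := by
              have := Finset.mul_prod_erase univ (fun l => av (fun ω => pj a B j l (W ω)))
                (mem_univ (some i))
              rw [Fintype.prod_option, ← Finset.mul_prod_erase univ _ (mem_univ j), pje, e2]
                at this
              simpa [pj, hij, hπ, hα] using this
            rw [← e5, ← mul_assoc, mul_comm (v i)]
            apply mul_le_mul_of_nonneg_right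
            · simpa [pj, r, hij] using hv i
            · apply Finset.prod_nonneg
              rintro (_ | l) _
              · exact av_nonneg fun _ => ind_nonneg _
              · refine av_nonneg fun _ => ?_
                simp only [pj]
                split_ifs
                · exact zero_le_one
                · exact ind_nonneg _
        _ ≤ ∑ i, v i * (α j * (P / π j)) :=
            Finset.sum_le_sum_of_subset_of_nonneg (erase_subset _ _)
              (fun i _ _ => mul_nonneg (hv0 i) (mul_nonneg (hα0 j) hq))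
        _ = _ := by rw [← Finset.sum_mul]; ring
    rw [e2, e3]
    have e6 : av (fun ω => pj a B j none (W ω)) = α j := rfl
    have e7 : av (fun ω => pj a B j none (W ω) * r none ω ^ 2) =
      av (fun ω => ind (a (W ω) = j) * (W ω + 1 - β j) ^ 2) := rfl
    rw [e6, e7]
    linarith
  simp only [t1, t2, t3, Finset.sum_sub_distrib, hαs]
  have t6 := Finset.sum_le_sum (s := univ) (fun j _ => t5 j)
  have t7 : ∑ j, (av (fun ω => ind (a (W ω) = j) * (W ω + 1 - β j) ^ 2) + α j +
      α j * ∑ i, v i) * (P / π j) = ∑ j, α j * (P / π j) +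
      P * ∑ j, (av (fun ω => ind (a (W ω) = j) * (W ω + 1 - β j) ^ 2) +
        α j * ∑ i, v i) / π j := by
    rw [Finset.mul_sum, ← Finset.sum_add_distrib]
    refine Finset.sum_congr rfl fun j _ => ?_
    ring
  rw [t7] at t6
  linarith

end Vale.Agent.P047b
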