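import Mathlib
import Vale.Agent.P047b.Gadget

namespace Vale.Agent.P047b

open Finset MeasureTheory ProbabilityTheory Filter Topology
open scoped ENNReal BoundedContinuousFunction

/-- the law of `X` under the uniform measure -/
noncomputable def law {α : Type*} [Fintype α] (X : α → ℝ) : Measure ℝ :=
  ((Fintype.card α : ℝ≥0∞))⁻¹ • ∑ x, Measure.dirac (X x)

lemma integral_law {α E : Type*} [Fintype α] [NormedAddCommGroup E] [NormedSpace ℝ E]
    [CompleteSpace E] (X : α → ℝ) (f : ℝ → E) :
    ∫ u, f u ∂(law X) = ((Fintype.card α : ℝ))⁻¹ • ∑ x, f (X x) := by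
  rw [law, integral_smul_measure, integral_finsetSum_measure (fun _ _ => integrable_dirac (by simp))]
  simp

lemma integral_law_real {α : Type*} [Fintype α] (X : α → ℝ) (f : ℝ → ℝ) :
    ∫ u, f u ∂(law X) = av (fun x => f (X x)) := by
  rw [integral_law, av, smul_eq_mul, div_eq_inv_mul]

lemma law_prob {α : Type*} [Fintype α] [Nonempty α] (X : α → ℝ) :
    IsProbabilityMeasure (law X) := by
  constructor
  simp only [law, Measure.smul_apply, Measure.coe_finsetSum, Finset.sum_apply, measure_univ,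
    sum_const, card_univ, nsmul_eq_mul, mul_one, smul_eq_mul]
  exact ENNReal.inv_mul_cancel (by simp) (by simp)

/-- normalised sum of `m` copies -/
noncomputable def nsum {Ω : Type*} (W : Ω → ℝ) (m : ℕ) (y : Fin m → Ω) : ℝ :=
  (√(m : ℝ))⁻¹ * ∑ i, W (y i)

/-- the law as a probability measure -/
noncomputable def lawP {α : Type*} [Fintype α] [Nonempty α] (X : α → ℝ) : ProbabilityMeasure ℝ :=
  ⟨law X, law_prob X⟩

/-- the standard Gaussian as a probability measure -/
noncomputable def gaussP : ProbabilityMeasure ℝ := ⟨gaussianReal 0 1, inferInstance⟩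

lemma clt_law {Ω : Type*} [Fintype Ω] [Nonempty Ω] (W : Ω → ℝ) (h0 : av W = 0)
    (h1 : av (fun ω => W ω ^ 2) = 1) :
    Tendsto (fun m : ℕ => lawP (nsum W m)) atTop (𝓝 gaussP) := by
  refine ProbabilityMeasure.tendsto_iff_tendsto_charFun.2 fun t => ?_
  have := law_prob W
  have key := tendsto_charFun_inv_sqrt_mul_pow (P := law W) (X := id) aemeasurable_id
    (by simpa [integral_law_real] using h0) (by simpa [integral_law_real] using h1) t
  have e : ∀ m : ℕ, charFun (law (nsum W m)) t =
      charFun ((law W).map id) ((√(m : ℝ))⁻¹ * t) ^ m := by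
    intro m
    rw [Measure.map_id, charFun_apply_real, charFun_apply_real, integral_law, integral_law]
    have : ∀ y : Fin m → Ω, Complex.exp (t * (nsum W m y : ℝ) * Complex.I) =
        ∏ i, Complex.exp ((((√(m : ℝ))⁻¹ * t : ℝ) : ℂ) * (W (y i) : ℝ) * Complex.I) := by
      intro y
      rw [← Complex.exp_sum]
      congr 1
      simp only [nsum]
      push_cast
      simp only [Finset.mul_sum, Finset.sum_mul]
      exact Finset.sum_congr rfl fun i _ => by ring
    simp only [this]
    rw [← Fintype.piFinset_univ, ← Finset.prod_univ_sum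
      (f := fun (_ : Fin m) (ω : Ω) =>
        Complex.exp ((((√(m : ℝ))⁻¹ * t : ℝ) : ℂ) * (W ω : ℝ) * Complex.I))]
    simp [mul_pow]
  simp only [lawP, gaussP, ProbabilityMeasure.coe_mk, e, charFun_gaussianReal]
  simpa [neg_div] using key

/-- Gaussian mass of an interval -/
noncomputable def gI (a b : ℝ) : ℝ := ∫ x in Set.Ico a b, gaussianPDFReal 0 1 x

lemma clt_interval {Ω : Type*} [Fintype Ω] [Nonempty Ω] (W : Ω → ℝ) (h0 : av W = 0)
    (h1 : av (fun ω => W ω ^ 2) = 1) (a b : ℝ) :
    Tendsto (fun m : ℕ => av (fun y => ind (nsum W m y ∈ Set.Ico a b))) atTop (𝓝 (gI a b)) := by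
  have := nullSingletonClass_gaussianReal (μ := 0) (v := 1) one_ne_zero
  have h := ProbabilityMeasure.tendsto_measure_of_null_frontier_of_tendsto' (clt_law W h0 h1)
    (E := Set.Ico a b) (by
      simp only [lawP, gaussP, ProbabilityMeasure.coe_mk]
      by_cases hab : a < b
      · rw [frontier_Ico hab]
        exact Set.Finite.measure_zero (Set.toFinite _) _
      · rw [Set.Ico_eq_empty hab]; simp)
  simp only [lawP, gaussP, ProbabilityMeasure.coe_mk] at h
  have h2 := (ENNReal.tendsto_toReal (measure_ne_top _ _)).comp h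
  rw [gaussianReal_apply_eq_integral _ one_ne_zero, ENNReal.toReal_ofReal
    (setIntegral_nonneg measurableSet_Ico fun x _ => gaussianPDFReal_nonneg _ _ _)] at h2
  refine h2.congr fun m => ?_
  have := law_prob (nsum W m)
  simp only [Function.comp]
  rw [← measureReal_def, ← integral_indicator_one measurableSet_Ico, integral_law_real]
  refine av_congr fun y => ?_
  by_cases hy : nsum W m y ∈ Set.Ico a b
  · rw [ind_pos hy]; simp [hy]
  · rw [ind_neg hy]; simp [hy]

lemma clt_bcf {Ω : Type*} [Fintype Ω] [Nonempty Ω] (W : Ω → ℝ) (h0 : av W = 0)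
    (h1 : av (fun ω => W ω ^ 2) = 1) (ψ : ℝ →ᵇ ℝ) :
    Tendsto (fun m : ℕ => av (fun y => ψ (nsum W m y))) atTop
      (𝓝 (∫ x, ψ x ∂gaussianReal 0 1)) := by
  have h := ProbabilityMeasure.tendsto_iff_forall_integral_tendsto.1 (clt_law W h0 h1) ψ
  simpa only [lawP, gaussP, ProbabilityMeasure.coe_mk, integral_law_real] using h

lemma clt_min {Ω : Type*} [Fintype Ω] [Nonempty Ω] (W : Ω → ℝ) (h0 : av W = 0)
    (h1 : av (fun ω => W ω ^ 2) = 1) (c : ℝ) (hc : 0 ≤ c) :
    Tendsto (fun m : ℕ => av (fun y => min (nsum W m y ^ 2) c)) atTop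
      (𝓝 (∫ x, min (x ^ 2) c ∂gaussianReal 0 1)) :=
  clt_bcf W h0 h1 (BoundedContinuousFunction.ofNormedAddCommGroup (fun x : ℝ => min (x ^ 2) c)
    (by fun_prop) c (fun x => by
      rw [Real.norm_eq_abs, abs_of_nonneg (le_min (sq_nonneg x) hc)]
      exact min_le_right _ _))

lemma av_nsum {Ω : Type*} [Fintype Ω] [Nonempty Ω] (W : Ω → ℝ) (h0 : av W = 0) (m : ℕ) :
    av (nsum W m) = 0 := by
  unfold nsum
  rw [av_const_mul, av_sum]
  have : ∀ i : Fin m, av (fun y : Fin m → Ω => W (y i)) = 0 := fun i => by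
    have := av_prod_mul (fun (_ : Fin m) (_ : Ω) => (1 : ℝ)) W i
    simpa [h0] using this
  simp [this]

lemma av_nsum_sq {Ω : Type*} [Fintype Ω] [Nonempty Ω] (W : Ω → ℝ) (h0 : av W = 0)
    (h1 : av (fun ω => W ω ^ 2) = 1) (m : ℕ) (hm : 0 < m) :
    av (fun y => nsum W m y ^ 2) = 1 := by
  unfold nsum
  simp only [mul_pow]
  rw [av_const_mul, av_sum_sq W h0, h1, inv_pow, Real.sq_sqrt (Nat.cast_nonneg m)]
  have : (m : ℝ) ≠ 0 := by positivity
  simp [this]

lemma gI_ge {a b c : ℝ} (hab : a ≤ b) (h : ∀ x ∈ Set.Ico a b, c ≤ gaussianPDFReal 0 1 x) :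
    c * (b - a) ≤ gI a b := by
  have := setIntegral_ge_of_const_le_real (μ := volume) (s := Set.Ico a b)
    (f := gaussianPDFReal 0 1) (c := c) measurableSet_Ico (by simp) h
    (integrable_gaussianPDFReal 0 1).integrableOn
  simpa [Measure.real, hab, gI] using this

lemma gI_le {a b c : ℝ} (hab : a ≤ b) (h : ∀ x ∈ Set.Ico a b, gaussianPDFReal 0 1 x ≤ c) :
    gI a b ≤ c * (b - a) := by
  have := setIntegral_mono_on (μ := volume) (s := Set.Ico a b)
    (f := gaussianPDFReal 0 1) (g := fun _ => c) (integrable_gaussianPDFReal 0 1).integrableOn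
    (integrableOn_const (by simp)) measurableSet_Ico h
  simpa [Measure.real, hab, mul_comm, gI] using this

lemma gauss_tail (T : ℝ) (hT : 0 ≤ T) :
    1 - ∫ x, min (x ^ 2) (T ^ 2 / 4) ∂gaussianReal 0 1 ≤
      4 * Real.exp (19 ^ 2 / 2) * Real.exp (-9 * T) := by
  have i2 : Integrable (fun x : ℝ => x ^ 2) (gaussianReal 0 1) :=
    (memLp_id_gaussianReal (μ := 0) (v := 1) 2).integrable_sq
  have e2 : ∫ x, x ^ 2 ∂gaussianReal 0 1 = 1 := by
    have := variance_fun_id_gaussianReal (μ := 0) (v := 1)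
    rw [variance_eq_integral aemeasurable_id'] at this
    simpa using this
  have im : Integrable (fun x : ℝ => min (x ^ 2) (T ^ 2 / 4)) (gaussianReal 0 1) :=
    i2.inf (integrable_const _)
  have ie := fun t => integrable_exp_mul_gaussianReal (μ := 0) (v := 1) t
  have me : ∀ t : ℝ, ∫ x, Real.exp (t * x) ∂gaussianReal 0 1 = Real.exp (t ^ 2 / 2) := by
    intro t
    have := congrFun (mgf_fun_id_gaussianReal (μ := 0) (v := 1)) t
    simpa [mgf] using this
  rw [← e2, ← integral_sub i2 im]
  have hle : ∀ x : ℝ, x ^ 2 - min (x ^ 2) (T ^ 2 / 4) ≤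
      2 * Real.exp (-9 * T) * (Real.exp (19 * x) + Real.exp (-19 * x)) := by
    intro x
    by_cases hx : x ^ 2 ≤ T ^ 2 / 4
    · rw [min_eq_left hx, sub_self]; positivity
    · have h1 : T / 2 ≤ |x| := by
        by_contra hlt
        have h7 : |x| ^ 2 ≤ (T / 2) ^ 2 := by gcongr; exact (not_le.1 hlt).le
        rw [sq_abs] at h7
        apply hx
        linarith
      have h2 : x ^ 2 ≤ 2 * Real.exp |x| := by
        have := Real.quadratic_le_exp_of_nonneg (abs_nonneg x)
        rw [sq_abs] at this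
        nlinarith [abs_nonneg x]
      have h3 : Real.exp |x| ≤ Real.exp (-9 * T) * Real.exp (19 * |x|) := by
        rw [← Real.exp_add]
        exact Real.exp_le_exp.2 (by linarith)
      have h4 : Real.exp (19 * |x|) ≤ Real.exp (19 * x) + Real.exp (-19 * x) := by
        rcases abs_cases x with h | h
        · rw [h.1]; linarith [Real.exp_pos (-19 * x)]
        · rw [h.1, show 19 * -x = -19 * x by ring]; linarith [Real.exp_pos (19 * x)]
      have h5 : 0 ≤ min (x ^ 2) (T ^ 2 / 4) := le_min (sq_nonneg x) (by positivity)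
      have h6 := mul_le_mul_of_nonneg_left h4 (Real.exp_pos (-9 * T)).le
      linarith
  calc _ ≤ ∫ x, 2 * Real.exp (-9 * T) * (Real.exp (19 * x) + Real.exp (-19 * x))
        ∂gaussianReal 0 1 :=
        integral_mono (i2.sub im) (((ie 19).add (ie (-19))).const_mul _) hle
    _ = _ := by
        rw [integral_const_mul, integral_add (ie 19) (ie (-19)), me, me]
        norm_num
        ring

end Vale.Agent.P047b
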