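import Mathlib
import Vale.Agent.P047b.Clt

namespace Vale.Agent.P047b

open Finset MeasureTheory ProbabilityTheory Filter Topology

lemma pdf_eq (x : ℝ) : gaussianPDFReal 0 1 x = (√(2 * Real.pi))⁻¹ * Real.exp (-x ^ 2 / 2) := by
  simp [gaussianPDFReal]

lemma gI_pos {a b : ℝ} (hab : a < b) : 0 < gI a b := by
  have h := gI_ge (a := a) (b := b)
    (c := (√(2 * Real.pi))⁻¹ * Real.exp (-(|a| + |b|) ^ 2 / 2)) hab.le (fun x hx => by
      rw [pdf_eq]
      have h1 : x ^ 2 ≤ (|a| + |b|) ^ 2 := by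
        apply sq_le_sq'
        · linarith [hx.1, neg_abs_le a, abs_nonneg b]
        · linarith [hx.2, le_abs_self b, abs_nonneg a]
      exact mul_le_mul_of_nonneg_left (Real.exp_le_exp.2 (by linarith)) (by positivity))
  refine lt_of_lt_of_le ?_ h
  have := Real.pi_pos
  have : 0 < b - a := sub_pos.2 hab
  positivity

lemma gI_ratio {c h w T : ℝ} (hc : |c| ≤ T) (hh : h ≤ 1) (hw : 0 < w) (hwh : w ≤ h) :
    gI c (c + h) ≤ h / w * Real.exp (3 * T + 2) * gI (c + 1) (c + 1 + w) := by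
  have hc' := abs_le.1 hc
  have h1 := gI_le (a := c) (b := c + h)
    (c := (√(2 * Real.pi))⁻¹ * Real.exp (-(c ^ 2 - 2 * T) / 2)) (by linarith) (fun x hx => by
      rw [pdf_eq]
      gcongr
      nlinarith [hx.1, hx.2, sq_nonneg (x - c)])
  have h2 := gI_ge (a := c + 1) (b := c + 1 + w)
    (c := (√(2 * Real.pi))⁻¹ * Real.exp (-(c ^ 2 + 4 * T + 4) / 2)) (by linarith) (fun x hx => by
      rw [pdf_eq]
      gcongr
      nlinarith [hx.1, hx.2])
  have e : Real.exp (-(c ^ 2 - 2 * T) / 2) =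
      Real.exp (3 * T + 2) * Real.exp (-(c ^ 2 + 4 * T + 4) / 2) := by
    rw [← Real.exp_add]; congr 1; ring
  rw [e] at h1
  have h3 : 0 ≤ h / w * Real.exp (3 * T + 2) := by
    have : 0 < h := by linarith
    positivity
  refine h1.trans (le_trans (le_of_eq ?_) (mul_le_mul_of_nonneg_left h2 h3))
  field_simp
  ring

/-- conditional mean on a cell -/
lemma cell_mean {Ω : Type*} [Fintype Ω] (W : Ω → ℝ) (lo hi : ℝ)
    (hπ : 0 < av (fun ω => ind (W ω ∈ Set.Ico lo hi))) :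
    ∃ β, lo ≤ β ∧ β ≤ hi ∧ av (fun ω => ind (W ω ∈ Set.Ico lo hi) * (W ω - β)) = 0 ∧
      av (fun ω => ind (W ω ∈ Set.Ico lo hi) * (W ω - β) ^ 2) ≤
        av (fun ω => ind (W ω ∈ Set.Ico lo hi)) * (hi - lo) ^ 2 := by
  set π := av (fun ω => ind (W ω ∈ Set.Ico lo hi)) with hπ'
  set m := av (fun ω => ind (W ω ∈ Set.Ico lo hi) * W ω) with hm
  have h1 : π * lo ≤ m := by
    rw [hπ', ← av_mul_const]
    refine av_mono fun ω => ?_
    by_cases h : W ω ∈ Set.Ico lo hi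
    · rw [ind_pos h]; linarith [h.1]
    · rw [ind_neg h]; simp
  have h2 : m ≤ π * hi := by
    rw [hπ', ← av_mul_const]
    refine av_mono fun ω => ?_
    by_cases h : W ω ∈ Set.Ico lo hi
    · rw [ind_pos h]; linarith [h.2]
    · rw [ind_neg h]; simp
  have h3 : lo ≤ m / π := by rw [le_div_iff₀ hπ]; linarith
  have h4 : m / π ≤ hi := by rw [div_le_iff₀ hπ]; linarith
  refine ⟨m / π, h3, h4, ?_, ?_⟩
  · simp only [mul_sub, av_sub, av_mul_const]
    rw [← hπ', ← hm]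
    field_simp
    ring
  · rw [hπ', ← av_mul_const]
    refine av_mono fun ω => ?_
    by_cases h : W ω ∈ Set.Ico lo hi
    · rw [ind_pos h, one_mul, one_mul]
      apply sq_le_sq'
      · linarith [h.1]
      · linarith [h.2]
    · rw [ind_neg h]; simp

lemma params : ∃ T N : ℕ, 1 ≤ T ∧ 1 ≤ N ∧
    16 * T * (T + 1) * Real.exp (3 * T + 2) / N ≤ 1 / 4 ∧ (2 * T + 1 : ℝ) ≤ N ∧
    20 * (8 * Real.exp (19 ^ 2 / 2) * Real.exp (-9 * T)) * (N : ℝ) ^ 2 ≤
      (√(2 * Real.pi))⁻¹ * Real.exp (-1 / 2) / 4 := by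
  set φ : ℝ := (√(2 * Real.pi))⁻¹ * Real.exp (-1 / 2) / 4 with hφ
  have hφ0 : 0 < φ := by have := Real.pi_pos; positivity
  set C : ℝ := 20 * (8 * Real.exp (19 ^ 2 / 2)) * (129 * Real.exp 2) ^ 2 with hC
  have hC0 : 0 < C := by positivity
  obtain ⟨T₀, hT₀⟩ := exists_nat_ge (C / φ)
  set T : ℕ := T₀ + 1 with hT
  have hT1 : (1 : ℝ) ≤ T := by rw [hT]; push_cast; linarith [Nat.cast_nonneg (α := ℝ) T₀]
  have hTC : C / φ ≤ T := by rw [hT]; push_cast; linarith
  set x : ℝ := 64 * T * (T + 1) * Real.exp (3 * T + 2) with hx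
  have hE : 1 ≤ Real.exp (3 * T + 2) := Real.one_le_exp (by positivity)
  have hx1 : 2 * T + 1 ≤ x := by
    have : 64 * (T : ℝ) * (T + 1) * 1 ≤ x := by rw [hx]; gcongr
    nlinarith
  have hN1 : x ≤ (⌈x⌉₊ : ℕ) := Nat.le_ceil x
  have hN2 : ((⌈x⌉₊ : ℕ) : ℝ) ≤ x + 1 := (Nat.ceil_lt_add_one (by linarith)).le
  have hN0 : (0 : ℝ) < (⌈x⌉₊ : ℕ) := by linarith
  refine ⟨T, ⌈x⌉₊, by omega, by exact_mod_cast hN0, ?_, hx1.trans hN1, ?_⟩
  · rw [div_le_iff₀ hN0]
    linarith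
  · have e1 : (T : ℝ) * (T + 1) ≤ 2 * Real.exp T := by
      have := Real.quadratic_le_exp_of_nonneg (x := (T : ℝ)) (by linarith)
      nlinarith
    have e2 : Real.exp T * Real.exp (3 * T + 2) = Real.exp 2 * Real.exp (4 * T) := by
      rw [← Real.exp_add, ← Real.exp_add]; congr 1; ring
    have e3 : 1 ≤ Real.exp 2 * Real.exp (4 * T) := by
      rw [← e2]
      exact one_le_mul_of_one_le_of_one_le (Real.one_le_exp (by linarith)) hE
    have e4 : ((⌈x⌉₊ : ℕ) : ℝ) ≤ 129 * Real.exp 2 * Real.exp (4 * T) := by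
      have : x ≤ 64 * (2 * Real.exp T) * Real.exp (3 * T + 2) := by
        rw [hx, mul_assoc 64]; gcongr
      nlinarith
    have e5 : Real.exp (-9 * T) * Real.exp (4 * T) ^ 2 * Real.exp T = 1 := by
      rw [sq, ← Real.exp_add, ← Real.exp_add, ← Real.exp_add, ← Real.exp_zero]; congr 1; ring
    have e6 : C ≤ φ * Real.exp T := by
      rw [div_le_iff₀ hφ0] at hTC
      have := Real.add_one_le_exp (T : ℝ)
      nlinarith
    calc _ ≤ 20 * (8 * Real.exp (19 ^ 2 / 2) * Real.exp (-9 * T)) *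
          (129 * Real.exp 2 * Real.exp (4 * T)) ^ 2 := by gcongr
      _ = C * (Real.exp (-9 * T) * Real.exp (4 * T) ^ 2) := by rw [hC]; ring
      _ ≤ φ * Real.exp T * (Real.exp (-9 * T) * Real.exp (4 * T) ^ 2) := by gcongr
      _ = φ * (Real.exp (-9 * T) * Real.exp (4 * T) ^ 2 * Real.exp T) := by ring
      _ = φ := by rw [e5, mul_one]

/-- left end of cell `j` -/
noncomputable def cl (T N j : ℕ) : ℝ := -T + j * (1 / (N : ℝ) ^ 2)

open Classical in
/-- the cell that contains `u` -/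
noncomputable def sel (T N : ℕ) (u : ℝ) : Option (Fin (2 * T * N ^ 2)) :=
  if H : ∃ j : Fin (2 * T * N ^ 2), u ∈ Set.Ico (cl T N j) (cl T N j + 1 / (N : ℝ) ^ 2) then
    some H.choose else none

/-- left ends of the target cells -/
noncomputable def lo (T N : ℕ) : Option (Fin (2 * T * N ^ 2)) → ℝ
  | none => 0
  | some j => cl T N j + 1

/-- widths of the target cells -/
noncomputable def wd (T N : ℕ) : Option (Fin (2 * T * N ^ 2)) → ℝ
  | none => 1 / (N : ℝ) ^ 2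
  | some _ => 1 / (N : ℝ) ^ 3

lemma sel_some {T N : ℕ} {u : ℝ} {j : Fin (2 * T * N ^ 2)} (h : sel T N u = some j) :
    u ∈ Set.Ico (cl T N j) (cl T N j + 1 / (N : ℝ) ^ 2) := by
  unfold sel at h
  split_ifs at h with H
  rw [← Option.some.inj h]
  exact H.choose_spec

lemma sel_none {T N : ℕ} (hN : 1 ≤ N) {u : ℝ} (h : sel T N u = none) : (T : ℝ) ≤ |u| := by
  unfold sel at h
  split_ifs at h with H
  by_contra hlt
  have hlt' := abs_lt.1 (not_le.1 hlt)
  have hN0 : (0 : ℝ) < (N : ℝ) ^ 2 := by positivity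
  have h0 : 0 ≤ (u + T) * (N : ℝ) ^ 2 := mul_nonneg (by linarith [hlt'.1]) hN0.le
  have h1 : ⌊(u + T) * (N : ℝ) ^ 2⌋₊ < 2 * T * N ^ 2 := by
    rw [Nat.floor_lt h0]
    push_cast
    exact mul_lt_mul_of_pos_right (by linarith [hlt'.2]) hN0
  apply H
  refine ⟨⟨_, h1⟩, ?_, ?_⟩
  · have := Nat.floor_le h0
    simp only [cl, mul_one_div]
    rw [← div_le_iff₀ hN0] at this
    linarith
  · have := Nat.lt_floor_add_one ((u + T) * (N : ℝ) ^ 2)
    simp only [cl, mul_one_div]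
    rw [← lt_div_iff₀ hN0, add_div] at this
    linarith

lemma cl_abs {T N : ℕ} (hN : 1 ≤ N) (j : Fin (2 * T * N ^ 2)) : |cl T N j| ≤ T := by
  have hN0 : (0 : ℝ) < (N : ℝ) ^ 2 := by positivity
  have h1 : ((j : ℕ) : ℝ) ≤ 2 * T * (N : ℝ) ^ 2 := by exact_mod_cast j.2.le
  rw [← div_le_iff₀ hN0] at h1
  have h2 : 0 ≤ ((j : ℕ) : ℝ) / (N : ℝ) ^ 2 := by positivity
  simp only [cl, mul_one_div]
  rw [abs_le]
  constructor <;> linarith

lemma det_loss {T N : ℕ} (hT : 1 ≤ T) (hN : 1 ≤ N) {τ : ℝ}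
    (p1 : 16 * T * (T + 1) * Real.exp (3 * T + 2) / N ≤ 1 / 4) (p2 : (2 * T + 1 : ℝ) ≤ N)
    (p3 : 20 * τ * (N : ℝ) ^ 2 ≤ (√(2 * Real.pi))⁻¹ * Real.exp (-1 / 2) / 4)
    {Ω : Type*} [Fintype Ω] [Nonempty Ω] (W : Ω → ℝ) (h0 : av W = 0)
    (h1 : av (fun ω => W ω ^ 2) = 1)
    (hB : ∀ i, gI (lo T N i) (lo T N i + wd T N i) / 2 ≤
      av (fun ω => ind (W ω ∈ Set.Ico (lo T N i) (lo T N i + wd T N i))))
    (hA : ∀ j : Fin (2 * T * N ^ 2),
      av (fun ω => ind (W ω ∈ Set.Ico (cl T N j) (cl T N j + 1 / (N : ℝ) ^ 2))) ≤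
        2 * gI (cl T N j) (cl T N j + 1 / (N : ℝ) ^ 2))
    (ht : 1 - av (fun ω => min (W ω ^ 2) ((T : ℝ) ^ 2 / 4)) ≤ τ) :
    ∃ s, av (fun y : Option (Option (Fin (2 * T * N ^ 2))) → Ω =>
      ((∑ l, W (y l)) - gad (sel T N) (fun i => Set.Ico (lo T N i) (lo T N i + wd T N i)) s
        (fun l => W (y l))) ^ 2) ≤ 1 - (∏ i, gI (lo T N i) (lo T N i + wd T N i) / 2) / 2 := by
  have hN1 : (1 : ℝ) ≤ N := by exact_mod_cast hN
  have hT1 : (1 : ℝ) ≤ T := by exact_mod_cast hT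
  have hwd : ∀ i, 0 < wd T N i := by
    rintro (_ | i) <;> simp only [wd] <;> positivity
  have hg : ∀ i, 0 < gI (lo T N i) (lo T N i + wd T N i) := fun i => gI_pos (by linarith [hwd i])
  set π : Option (Fin (2 * T * N ^ 2)) → ℝ :=
    fun i => av (fun ω => ind (W ω ∈ Set.Ico (lo T N i) (lo T N i + wd T N i))) with hπ
  have hπ0 : ∀ i, 0 < π i := fun i => lt_of_lt_of_le (half_pos (hg i)) (hB i)
  choose β hβ1 hβ2 hβ3 hβ4 using fun i => cell_mean W (lo T N i) (lo T N i + wd T N i) (hπ0 i)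
  refine ⟨(∑ i, β i) - 1, (gad_loss W h0 h1 (sel T N) _ β π (fun i => wd T N i ^ 2)
    (fun _ => rfl) hπ0 hβ3 (fun i => by simpa only [add_sub_cancel_left] using hβ4 i) (fun _ => sq_nonneg _)).trans ?_⟩
  have hv : ∑ i, wd T N i ^ 2 = (2 * T + 1) / (N : ℝ) ^ 4 := by
    rw [Fintype.sum_option]
    simp only [wd, Finset.sum_const, card_univ, Fintype.card_fin, nsmul_eq_mul]
    push_cast
    field_simp
    ring
  have hv1 : (2 * T + 1) / (N : ℝ) ^ 4 ≤ 1 := by
    rw [div_le_one (by positivity)]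
    exact p2.trans (le_self_pow₀ hN1 (by norm_num))
  have hh1 : 1 / (N : ℝ) ^ 2 ≤ 1 := by
    rw [div_le_one (by positivity)]
    exact one_le_pow₀ hN1
  have hwh : 1 / (N : ℝ) ^ 3 ≤ 1 / (N : ℝ) ^ 2 :=
    one_div_le_one_div_of_le (by positivity) (pow_le_pow_right₀ hN1 (by norm_num))
  rw [hv, Fintype.sum_option]
  have bulk : ∀ j : Fin (2 * T * N ^ 2),
      (av (fun ω => ind (sel T N (W ω) = some j) * (W ω + 1 - β (some j)) ^ 2) +
        av (fun ω => ind (sel T N (W ω) = some j)) * ((2 * T + 1) / (N : ℝ) ^ 4)) / π (some j) ≤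
      8 * (T + 1) * Real.exp (3 * T + 2) / (N : ℝ) ^ 3 := by
    intro j
    set α := av (fun ω => ind (sel T N (W ω) = some j)) with hα
    have a1 : av (fun ω => ind (sel T N (W ω) = some j) * (W ω + 1 - β (some j)) ^ 2) ≤
        α * (1 / (N : ℝ) ^ 2) ^ 2 := by
      rw [hα, ← av_mul_const]
      refine av_mono fun ω => ?_
      by_cases h : sel T N (W ω) = some j
      · rw [ind_pos h, one_mul, one_mul]
        have h2 := sel_some h
        have h3 := hβ1 (some j)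
        have h4 := hβ2 (some j)
        simp only [lo, wd] at h3 h4
        apply sq_le_sq'
        · linarith [h2.1]
        · linarith [h2.2]
      · rw [ind_neg h]; simp
    have a2 : α ≤ 4 * N * Real.exp (3 * T + 2) * π (some j) := by
      have b1 : α ≤ av (fun ω => ind (W ω ∈ Set.Ico (cl T N j) (cl T N j + 1 / (N : ℝ) ^ 2))) := by
        refine av_mono fun ω => ?_
        by_cases h : sel T N (W ω) = some j
        · rw [ind_pos h, ind_pos (sel_some h)]
        · rw [ind_neg h]; exact ind_nonneg _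
      have b2 := gI_ratio (cl_abs hN j) hh1 (by positivity) hwh
      have b3 : 1 / (N : ℝ) ^ 2 / (1 / (N : ℝ) ^ 3) = N := by field_simp
      rw [b3] at b2
      have b4 := mul_le_mul_of_nonneg_left (hB (some j))
        (show 0 ≤ 4 * N * Real.exp (3 * T + 2) by positivity)
      simp only [lo, wd] at b4
      have b5 := hA j
      simp only [hπ, lo, wd]
      linarith
    rw [div_le_iff₀ (hπ0 _)]
    calc _ ≤ α * ((2 * T + 2) / (N : ℝ) ^ 4) := by
          have : (2 * T + 2) / (N : ℝ) ^ 4 = (1 / (N : ℝ) ^ 2) ^ 2 + (2 * T + 1) / (N : ℝ) ^ 4 := by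
            field_simp; ring
          rw [this, mul_add]; linarith
      _ ≤ (4 * N * Real.exp (3 * T + 2) * π (some j)) * ((2 * T + 2) / (N : ℝ) ^ 4) := by gcongr
      _ = _ := by field_simp; ring
  have tail : (av (fun ω => ind (sel T N (W ω) = none) * (W ω + 1 - β none) ^ 2) +
        av (fun ω => ind (sel T N (W ω) = none)) * ((2 * T + 1) / (N : ℝ) ^ 4)) / π none ≤
      1 / 4 := by
    have a1 : av (fun ω => ind (sel T N (W ω) = none) * (W ω + 1 - β none) ^ 2) +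
        av (fun ω => ind (sel T N (W ω) = none)) * ((2 * T + 1) / (N : ℝ) ^ 4) ≤
        10 * (av (fun ω => W ω ^ 2) - av (fun ω => min (W ω ^ 2) ((T : ℝ) ^ 2 / 4))) := by
      rw [← av_mul_const, ← av_add, ← av_sub, ← av_const_mul]
      refine av_mono fun ω => ?_
      by_cases h : sel T N (W ω) = none
      · rw [ind_pos h, one_mul, one_mul]
        have h2 := sel_none hN h
        have h3 := hβ1 none
        have h4 := hβ2 none
        simp only [lo, wd] at h3 h4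
        have h5 : (W ω + 1 - β none) ^ 2 ≤ (2 * |W ω|) ^ 2 := by
          apply sq_le_sq'
          · linarith [neg_abs_le (W ω)]
          · linarith [le_abs_self (W ω)]
        have h6 : (T : ℝ) ^ 2 ≤ |W ω| ^ 2 := by gcongr
        rw [mul_pow, sq_abs] at h5
        rw [sq_abs] at h6
        have h7 := min_le_right (W ω ^ 2) ((T : ℝ) ^ 2 / 4)
        nlinarith
      · rw [ind_neg h]
        have := min_le_left (W ω ^ 2) ((T : ℝ) ^ 2 / 4)
        linarith
    have a2 := gI_ge (a := 0) (b := 0 + 1 / (N : ℝ) ^ 2)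
      (c := (√(2 * Real.pi))⁻¹ * Real.exp (-1 / 2)) (by positivity) (fun x hx => by
        rw [pdf_eq]
        have : x ^ 2 ≤ 1 := by nlinarith [hx.1, hx.2]
        exact mul_le_mul_of_nonneg_left (Real.exp_le_exp.2 (by linarith)) (by positivity))
    have a3 := hB none
    simp only [lo, wd] at a3
    have a4 : 20 * τ ≤ (√(2 * Real.pi))⁻¹ * Real.exp (-1 / 2) / 4 * (1 / (N : ℝ) ^ 2) := by
      rw [mul_one_div, le_div_iff₀ (by positivity)]
      exact p3
    rw [div_le_iff₀ (hπ0 _)]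
    simp only [hπ, lo, wd]
    rw [h1] at a1
    nlinarith
  have b1 := Finset.sum_le_sum (s := univ) (fun j _ => bulk j)
  have b2 : ∑ _j : Fin (2 * T * N ^ 2), 8 * (T + 1) * Real.exp (3 * T + 2) / (N : ℝ) ^ 3 =
      16 * T * (T + 1) * Real.exp (3 * T + 2) / N := by
    simp only [Finset.sum_const, card_univ, Fintype.card_fin, nsmul_eq_mul]
    push_cast
    field_simp
    ring
  have b3 : ∏ i, gI (lo T N i) (lo T N i + wd T N i) / 2 ≤ ∏ i, π i :=
    Finset.prod_le_prod (fun i _ => (half_pos (hg i)).le) (fun i _ => hB i)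
  have b4 : 0 < ∏ i, π i := Finset.prod_pos fun i _ => hπ0 i
  rw [b2] at b1
  nlinarith

lemma universal : ∃ (μ : Type) (_ : Fintype μ) (_ : DecidableEq μ) (a : ℝ → μ) (B : μ → Set ℝ)
    (δ : ℝ), 0 < δ ∧ 0 < Fintype.card μ ∧
    ∀ (Ω : Type) [Fintype Ω] [Nonempty Ω] (W : Ω → ℝ), av W = 0 → av (fun ω => W ω ^ 2) = 1 →
      ∀ᶠ m in atTop, ∃ s, av (fun y : Option μ → Fin m → Ω =>
        ((∑ l, nsum W m (y l)) - gad a B s (fun l => nsum W m (y l))) ^ 2) ≤ 1 - δ := by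
  obtain ⟨T, N, hT, hN, p1, p2, p3⟩ := params
  have hwd : ∀ i, 0 < wd T N i := by
    rintro (_ | i) <;> simp only [wd] <;> positivity
  have hg : ∀ i, 0 < gI (lo T N i) (lo T N i + wd T N i) := fun i => gI_pos (by linarith [hwd i])
  refine ⟨Option (Fin (2 * T * N ^ 2)), inferInstance, inferInstance, sel T N,
    fun i => Set.Ico (lo T N i) (lo T N i + wd T N i),
    (∏ i, gI (lo T N i) (lo T N i + wd T N i) / 2) / 2,
    half_pos (Finset.prod_pos fun i _ => half_pos (hg i)), Fintype.card_pos, ?_⟩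
  intro Ω _ _ W h0 h1
  have e1 : ∀ᶠ m in atTop, ∀ i, gI (lo T N i) (lo T N i + wd T N i) / 2 ≤
      av (fun y => ind (nsum W m y ∈ Set.Ico (lo T N i) (lo T N i + wd T N i))) :=
    eventually_all.2 fun i => (clt_interval W h0 h1 _ _).eventually_const_le (half_lt_self (hg i))
  have e2 : ∀ᶠ m in atTop, ∀ j : Fin (2 * T * N ^ 2),
      av (fun y => ind (nsum W m y ∈ Set.Ico (cl T N j) (cl T N j + 1 / (N : ℝ) ^ 2))) ≤
        2 * gI (cl T N j) (cl T N j + 1 / (N : ℝ) ^ 2) :=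
    eventually_all.2 fun j => (clt_interval W h0 h1 _ _).eventually_le_const (by
      have := gI_pos (a := cl T N j) (b := cl T N j + 1 / (N : ℝ) ^ 2)
        (lt_add_of_pos_right _ (by positivity))
      linarith)
  have e3 := (clt_min W h0 h1 ((T : ℝ) ^ 2 / 4) (by positivity)).eventually_const_le
    (u := 1 - 8 * Real.exp (19 ^ 2 / 2) * Real.exp (-9 * T)) (by
      have := gauss_tail T (Nat.cast_nonneg T)
      have : 0 < Real.exp (19 ^ 2 / 2) * Real.exp (-9 * T) := by positivity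
      linarith)
  filter_upwards [e1, e2, e3, eventually_gt_atTop 0] with m m1 m2 m3 m4
  exact det_loss hT hN p1 p2 p3 (nsum W m) (av_nsum W h0 m) (av_nsum_sq W h0 h1 m m4) m1 m2
    (by linarith)

end Vale.Agent.P047b
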