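import Mathlib
import Vale.Agent.P047b.Universal

namespace Vale.Agent.P047b

open Finset Filter Topology

lemma amp_step {μ ι : Type} [Fintype μ] [DecidableEq μ] [Fintype ι] [DecidableEq ι]
    (a : ℝ → μ) (B : μ → Set ℝ) (s δ σ : ℝ) (hσ : 0 < σ) {Z : (ι → Bool) → ℝ} {d : ℕ}
    (hZ : LowDeg Z d) (hC : Cond Z) (hJ : av (fun x => Z x ^ 2) = σ ^ 2)
    (hl : av (fun y : Option μ → ι → Bool =>
      ((∑ l, σ⁻¹ * Z (y l)) - gad a B s (fun l => σ⁻¹ * Z (y l))) ^ 2) ≤ 1 - δ) :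
    ∃ J', (Fintype.card μ + δ) * σ ^ 2 ≤ J' ∧ Sch (Fintype.card μ * d) J' := by
  have hW : LowDeg (fun x => σ⁻¹ * Z x) d := fun φ => hZ (fun u => φ (σ⁻¹ * u))
  have hY : LowDeg (fun x : Option μ × ι → Bool =>
      σ * gad a B s (fun l => σ⁻¹ * Z (blk x l))) (Fintype.card μ * d) :=
    fun φ => lowdeg_gad hW a B s (fun u => φ (σ * u))
  obtain ⟨Z', h1, h2, h3⟩ := exists_cond hY
  refine ⟨_, le_trans ?_ h3, _, inferInstance, inferInstance, Z', h1, h2, rfl⟩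
  rw [cond_blocks hC (fun w => σ * gad a B s (fun l => σ⁻¹ * w l)),
    av_blk (fun y => (σ * gad a B s (fun l => σ⁻¹ * Z (y l))) ^ 2), ← av_const_mul, ← av_sub]
  have e : ∀ y : Option μ → ι → Bool,
      2 * (σ * gad a B s (fun l => σ⁻¹ * Z (y l)) * ∑ j, Z (y j)) -
        (σ * gad a B s (fun l => σ⁻¹ * Z (y l))) ^ 2 =
      (∑ j, Z (y j)) ^ 2 - σ ^ 2 *
        ((∑ l, σ⁻¹ * Z (y l)) - gad a B s (fun l => σ⁻¹ * Z (y l))) ^ 2 := by
    intro y
    rw [← Finset.mul_sum]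
    field_simp
    ring
  simp only [e, av_sub, av_const_mul]
  rw [av_sum_sq Z hC.av_eq_zero, hJ, Fintype.card_option]
  have := mul_le_mul_of_nonneg_left hl (sq_nonneg σ)
  push_cast
  linarith

lemma av_sq_sum {ι : Type} [Fintype ι] [DecidableEq ι] {Z : (ι → Bool) → ℝ} (hC : Cond Z)
    (m : ℕ) : av (fun x : Fin m × ι → Bool => (∑ j, Z (blk x j)) ^ 2) =
      m * av (fun x => Z x ^ 2) := by
  rw [av_blk (fun y => (∑ j, Z (y j)) ^ 2), av_sum_sq Z hC.av_eq_zero, Fintype.card_fin]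

lemma nsum_eq {Ω : Type} (Z : Ω → ℝ) (J : ℝ) (m : ℕ) (y : Fin m → Ω) :
    nsum (fun ω => (√J)⁻¹ * Z ω) m y = (√(m * J))⁻¹ * ∑ j, Z (y j) := by
  unfold nsum
  rw [← Finset.mul_sum, Real.sqrt_mul (Nat.cast_nonneg m), mul_inv, mul_assoc]

lemma norm_mean {ι : Type} [Fintype ι] [DecidableEq ι] {Z : (ι → Bool) → ℝ} (hC : Cond Z)
    (J : ℝ) : av (fun ω => (√J)⁻¹ * Z ω) = 0 := by
  rw [av_const_mul, hC.av_eq_zero, mul_zero]

lemma norm_sq {Ω : Type} [Fintype Ω] {Z : Ω → ℝ} {J : ℝ} (hJ : 0 < J)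
    (h : av (fun x => Z x ^ 2) = J) : av (fun ω => ((√J)⁻¹ * Z ω) ^ 2) = 1 := by
  simp only [mul_pow]
  rw [av_const_mul, h, inv_pow, Real.sq_sqrt hJ.le, inv_mul_cancel₀ hJ.ne']

lemma amplify : ∃ γ : ℝ, 0 < γ ∧ ∀ (d : ℕ) (J : ℝ), 0 < d → 0 < J → Sch d J →
    ∃ (d' : ℕ) (J' : ℝ), 0 < d' ∧ (1 + γ) * (J / d) ≤ J' / d' ∧ Sch d' J' := by
  obtain ⟨μ, _, _, a, B, δ, hδ, hμ, H⟩ := universal
  have hμ' : (0 : ℝ) < Fintype.card μ := by exact_mod_cast hμ
  refine ⟨δ / Fintype.card μ, by positivity, ?_⟩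
  rintro d J hd hJ ⟨ι, _, _, Z, hZ, hC, hJ'⟩
  obtain ⟨m, ⟨s, hs⟩, hm⟩ := ((H (ι → Bool) (fun ω => (√J)⁻¹ * Z ω) (norm_mean hC J)
    (norm_sq hJ hJ')).and (eventually_gt_atTop 0)).exists
  have hm' : (0 : ℝ) < m := by exact_mod_cast hm
  have hσ : √(m * J) ^ 2 = m * J := Real.sq_sqrt (by positivity)
  obtain ⟨J', h1, h2⟩ := amp_step a B s δ (√(m * J)) (Real.sqrt_pos.2 (by positivity))
    (lowdeg_sum (κ := Fin m) hZ) (cond_sum hC) (by rw [av_sq_sum hC, hJ', hσ]) (by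
      simp only [nsum_eq] at hs
      rw [← av_equiv (Equiv.piCongrRight fun _ : Option μ => Equiv.curry (Fin m) ι Bool)] at hs
      exact hs)
  refine ⟨_, J', by simp only [Fintype.card_fin]; positivity, ?_, h2⟩
  rw [hσ] at h1
  have hd' : (0 : ℝ) < d := by exact_mod_cast hd
  simp only [Fintype.card_fin]
  push_cast
  rw [le_div_iff₀ (by positivity)]
  refine le_trans (le_of_eq ?_) h1
  field_simp

lemma unbounded (R : ℝ) : ∃ (d : ℕ) (J : ℝ), 0 < d ∧ 0 < J ∧ R * d ≤ J ∧ Sch d J := by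
  obtain ⟨γ, hγ, H⟩ := amplify
  have key : ∀ k : ℕ, ∃ (d : ℕ) (J : ℝ), 0 < d ∧ (1 + γ) ^ k ≤ J / d ∧ Sch d J := by
    intro k
    induction k with
    | zero => exact ⟨1, 1, one_pos, by simp, sch_one⟩
    | succ k ih =>
      obtain ⟨d, J, hd, h1, h2⟩ := ih
      have hd' : (0 : ℝ) < d := by exact_mod_cast hd
      have hJ : 0 < J := by
        have : 0 < J / d := lt_of_lt_of_le (by positivity) h1
        exact (div_pos_iff_of_pos_right hd').1 this
      obtain ⟨d', J', h3, h4, h5⟩ := H d J hd hJ h2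
      refine ⟨d', J', h3, le_trans ?_ h4, h5⟩
      rw [pow_succ']
      gcongr
  obtain ⟨k, hk⟩ := pow_unbounded_of_one_lt R (show 1 < 1 + γ by linarith)
  obtain ⟨d, J, hd, h1, h2⟩ := key k
  have hd' : (0 : ℝ) < d := by exact_mod_cast hd
  have h3 : 0 < J / d := lt_of_lt_of_le (by positivity) h1
  exact ⟨d, J, hd, (div_pos_iff_of_pos_right hd').1 h3,
    (le_div_iff₀ hd').1 (hk.le.trans h1), h2⟩

/-- Boolean functions with `L ≥ R √d`, on an arbitrary finite index type. -/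
lemma exists_bool (R : ℝ) : ∃ (ι : Type) (_ : Fintype ι) (_ : DecidableEq ι) (d : ℕ)
    (f : (ι → Bool) → Bool), 0 < d ∧ (fun x => sg (f x)) ∈ V ι d ∧
      R * √d ≤ av (fun x => sg (f x) * tot x) := by
  classical
  have hg : 0 < gI 1 2 := gI_pos one_lt_two
  obtain ⟨d, J, hd, hJ, hR, ι, _, _, Z, hZ, hC, hJ'⟩ := unbounded ((2 * R / gI 1 2) ^ 2)
  have e1 := (clt_interval (fun ω => (√J)⁻¹ * Z ω) (norm_mean hC J) (norm_sq hJ hJ') 1
    2).eventually_const_le (half_lt_self hg)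
  obtain ⟨m, h1, hm⟩ := (e1.and (eventually_gt_atTop 0)).exists
  have hm' : (0 : ℝ) < m := by exact_mod_cast hm
  have hσ : 0 < √(m * J) := Real.sqrt_pos.2 (by positivity)
  refine ⟨Fin m × ι, inferInstance, inferInstance, m * d,
    fun x => decide (0 ≤ ∑ j, Z (blk x j)), by positivity, ?_, ?_⟩
  · simpa only [Fintype.card_fin] using
      lowdeg_sum (κ := Fin m) hZ (fun u => sg (decide (0 ≤ u)))
  · rw [cond_sum hC (fun u => sg (decide (0 ≤ u))),
      av_blk (fun y => sg (decide (0 ≤ ∑ j, Z (y j))) * ∑ j, Z (y j))]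
    have h2 : √(m * J) * av (fun y => ind (nsum (fun ω => (√J)⁻¹ * Z ω) m y ∈ Set.Ico 1 2)) ≤
        av (fun y : Fin m → ι → Bool => sg (decide (0 ≤ ∑ j, Z (y j))) * ∑ j, Z (y j)) := by
      rw [← av_const_mul]
      refine av_mono fun y => ?_
      have h3 : sg (decide (0 ≤ ∑ j, Z (y j))) * ∑ j, Z (y j) = |∑ j, Z (y j)| := by
        by_cases h : 0 ≤ ∑ j, Z (y j)
        · simp [sg, h, abs_of_nonneg h]
        · simp [sg, h, abs_of_neg (not_le.1 h)]
      rw [h3]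
      by_cases h : nsum (fun ω => (√J)⁻¹ * Z ω) m y ∈ Set.Ico 1 2
      · rw [ind_pos h, mul_one]
        have h4 := h.1
        rw [nsum_eq, le_inv_mul_iff₀ hσ, mul_one] at h4
        exact h4.trans (le_abs_self _)
      · rw [ind_neg h, mul_zero]
        exact abs_nonneg _
    refine le_trans ?_ (le_trans (mul_le_mul_of_nonneg_left h1 hσ.le) h2)
    have h5 : (2 * R / gI 1 2) * √((m * d : ℕ) : ℝ) ≤ √(m * J) := by
      apply Real.le_sqrt_of_sq_le
      rw [mul_pow, Real.sq_sqrt (Nat.cast_nonneg _)]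
      push_cast
      nlinarith
    have h6 := mul_le_mul_of_nonneg_right h5 (half_pos hg).le
    refine le_trans (le_of_eq ?_) h6
    field_simp

/-- transfer to the cube on `Fin n` -/
lemma transfer {ι : Type} [Fintype ι] [DecidableEq ι] {d : ℕ} {f : (ι → Bool) → ℝ}
    (hf : f ∈ V ι d) :
    ∃ g : (Fin (Fintype.card ι) → Bool) → ℝ, (∀ x, ∃ y, g x = f y) ∧ deg g ≤ d ∧
      ∑ i, coeff g {i} = av (fun x => f x * tot x) := by
  let e := Fintype.equivFin ι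
  have hc : ∀ (g : (Fin (Fintype.card ι) → Bool) → ℝ) S,
      coeff g S = av (fun x => g x * chi S x) := by
    intro g S
    simp [coeff, av, chi]
  refine ⟨fun x => f (fun i => x (e i)), fun x => ⟨_, rfl⟩, ?_, ?_⟩
  · unfold deg
    refine Finset.sup_le fun S hS => ?_
    by_contra h
    refine (mem_filter.1 hS).2 ?_
    rw [hc]
    exact av_mul_chi (V_comap hf e) (not_le.1 h)
  · simp only [hc]
    rw [← av_sum, ← av_equiv (Equiv.arrowCongr e.symm (Equiv.refl Bool))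
      (fun x => f x * tot x)]
    refine av_congr fun x => ?_
    rw [← Finset.mul_sum]
    congr 1
    simp only [chi, tot, Finset.prod_singleton]
    exact (Equiv.sum_comp e (fun i => sg (x i))).symm

lemma sg_cases (b : Bool) : sg b = 1 ∨ sg b = -1 := by cases b <;> simp [sg]

theorem disproof (C : ℝ) : ∃ n : ℕ, 1 ≤ n ∧ ∃ f : (Fin n → Bool) → ℝ,
    (∀ x, f x = 1 ∨ f x = -1) ∧ C * √(deg f) < ∑ i, coeff f {i} := by
  obtain ⟨ι, _, _, d, f, hd, hf, hL⟩ := exists_bool (|C| + 1)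
  obtain ⟨g, h1, h2, h3⟩ := transfer hf
  have hd' : 0 < √(d : ℝ) := Real.sqrt_pos.2 (by exact_mod_cast hd)
  have h4 : C * √(deg g) < ∑ i, coeff g {i} := by
    rw [h3]
    have h5 : √(deg g : ℝ) ≤ √d := Real.sqrt_le_sqrt (by exact_mod_cast h2)
    have h6 : C * √(deg g) ≤ |C| * √d :=
      mul_le_mul (le_abs_self C) h5 (Real.sqrt_nonneg _) (abs_nonneg C)
    linarith
  refine ⟨_, ?_, g, fun x => ?_, h4⟩
  · by_contra h
    have h0 : Fintype.card ι = 0 := by omega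
    have : IsEmpty ι := Fintype.card_eq_zero_iff.1 h0
    have : 0 < (|C| + 1) * √(d : ℝ) := by positivity
    simp only [tot, Finset.univ_eq_empty, Finset.sum_empty, mul_zero, av_const] at hL
    linarith
  · obtain ⟨y, hy⟩ := h1 x
    rw [hy]
    exact sg_cases _

end Vale.Agent.P047b
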