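import Mathlib
import Vale.Agent.P047b.Amplify

namespace Vale.Agent.P047b

open Finset Filter Topology

/-- extension of `x` by one bit `z`, twisting the old bits by `z` -/
def tw {ι : Type} (z : Bool) (x : ι → Bool) : Option ι → Bool
  | none => z
  | some i => x i == z

/-- undo the twist -/
def untw {ι : Type} (y : Option ι → Bool) : ι → Bool := fun i => y (some i) == y none

lemma untw_tw {ι : Type} (z : Bool) (x : ι → Bool) : untw (tw z x) = x := by
  funext i
  simp only [untw, tw]
  cases x i <;> cases z <;> rfl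

lemma sg_beq (a b : Bool) : sg (a == b) = sg a * sg b := by
  cases a <;> cases b <;> simp [sg]

lemma av_tw {ι : Type} [Fintype ι] [DecidableEq ι] (F : (Option ι → Bool) → ℝ) :
    av F = av (fun x => (F (tw true x) + F (tw false x)) / 2) := by
  let e : Bool × (ι → Bool) ≃ (Option ι → Bool) :=
    { toFun := fun p => tw p.1 p.2
      invFun := fun y => (y none, untw y)
      left_inv := fun p => by simp only [untw_tw]; rfl
      right_inv := fun y => by
        funext o
        cases o with
        | none => rfl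
        | some i =>
          simp only [tw, untw]
          cases y (some i) <;> cases y none <;> rfl }
  rw [← av_equiv e F]
  simp only [av, Fintype.sum_prod_type, Fintype.sum_bool, e, Equiv.coe_fn_mk, Fintype.card_prod,
    Fintype.card_bool]
  rw [← Finset.sum_div, Finset.sum_add_distrib]
  push_cast
  rw [div_div]

lemma sg_coord_mem {ι : Type} (i : ι) : (fun x : ι → Bool => sg (x i)) ∈ V ι 1 := by
  have := chi_mem (S := ({i} : Finset ι)) (d := 1) (by simp)
  rwa [show chi ({i} : Finset ι) = fun x : ι → Bool => sg (x i) from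
    funext fun x => by simp [chi]] at this

lemma exists_balanced : ∃ (ι : Type) (_ : Fintype ι) (_ : DecidableEq ι) (D : ℕ)
    (g : (ι → Bool) → Bool), 2 ≤ D ∧ (fun x => sg (g x)) ∈ V ι D ∧ av (fun x => sg (g x)) = 0 ∧
      2 * √D ≤ av (fun x => sg (g x) * tot x) := by
  obtain ⟨ι, _, _, d, f, hd, hf, hL⟩ := exists_bool 5
  refine ⟨Option ι, inferInstance, inferInstance, d * 2 + 1,
    fun y => f (untw y) == y none, by omega, ?_, ?_, ?_⟩
  · simp only [sg_beq]
    have h1 : ∀ i : ι, (fun x : Option ι → Bool => sg (untw x i)) ∈ V (Option ι) 2 := by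
      intro i
      simp only [untw, sg_beq]
      have h := V_mul (ι := Option ι) (sg_coord_mem (some i)) (sg_coord_mem none)
      exact h
    have h2 := V_subst (f := fun x => sg (f x)) hf untw h1
    have h3 := V_mul h2 (sg_coord_mem none)
    exact h3
  · rw [av_tw]
    have e : ∀ x : ι → Bool, (sg (f (untw (tw true x)) == tw true x none) +
        sg (f (untw (tw false x)) == tw false x none)) / 2 = 0 := by
      intro x
      simp only [sg_beq, untw_tw, tw]
      simp only [sg, if_true, Bool.false_eq_true, if_false]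
      ring
    simp only [e, av_const]
  · rw [av_tw]
    have e : ∀ x : ι → Bool, (sg (f (untw (tw true x)) == tw true x none) * tot (tw true x) +
        sg (f (untw (tw false x)) == tw false x none) * tot (tw false x)) / 2 =
        sg (f x) * tot x + sg (f x) := by
      intro x
      simp only [sg_beq, untw_tw, tot, Fintype.sum_option, tw, ← Finset.sum_mul]
      simp only [sg, if_true, Bool.false_eq_true, if_false]
      ring
    simp only [e, av_add]
    have h1 : -1 ≤ av (fun x => sg (f x)) := by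
      rw [← av_const (α := ι → Bool) (-1)]
      exact av_mono fun x => by rcases sg_cases (f x) with h | h <;> rw [h] <;> norm_num
    have hd1 : (1 : ℝ) ≤ d := by exact_mod_cast hd
    have h2 : 1 ≤ √(d : ℝ) := Real.one_le_sqrt.2 hd1
    have h3 : √((d * 2 + 1 : ℕ) : ℝ) ≤ 2 * √(d : ℝ) := by
      rw [Real.sqrt_le_left (by positivity), mul_pow, Real.sq_sqrt (by positivity)]
      push_cast
      linarith
    linarith

lemma av_push {Ω κ : Type} [Fintype Ω] [Nonempty Ω] [Fintype κ] [DecidableEq κ] (g : Ω → Bool)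
    (hg : av (fun x => sg (g x)) = 0) (F : (κ → Bool) → ℝ) :
    av (fun y : κ → Ω => F (fun j => g (y j))) = av F := by
  have e : ∀ u : κ → Bool, F u = ∑ v : κ → Bool, F v * ∏ j, (1 + sg (v j) * sg (u j)) / 2 := by
    intro u
    rw [Finset.sum_eq_single u]
    · simp [sg_mul_self]
    · intro v _ hv
      obtain ⟨j, hj⟩ := Function.ne_iff.1 hv
      rw [Finset.prod_eq_zero (mem_univ j), mul_zero]
      revert hj
      cases v j <;> cases u j <;> simp [sg]
    · simp
  rw [av_congr (fun y : κ → Ω => e (fun j => g (y j))), av_congr e, av_sum, av_sum]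
  refine Finset.sum_congr rfl fun v _ => ?_
  rw [av_const_mul, av_const_mul, av_pi (fun j ω => (1 + sg (v j) * sg (g ω)) / 2),
    av_pi (fun j b => (1 + sg (v j) * sg b) / 2)]
  congr 1
  refine Finset.prod_congr rfl fun j _ => ?_
  simp only [div_eq_mul_inv, av_mul_const, av_add, av_const_mul, hg, av_const]
  rw [av_sg]

lemma cond_bal {ι : Type} [Fintype ι] [DecidableEq ι] (g : (ι → Bool) → Bool)
    (hg : av (fun x => sg (g x)) = 0) {L : ℝ} (hL : av (fun x => sg (g x) * tot x) = L) :
    Cond (fun x => L * sg (g x)) := by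
  intro φ
  have e : ∀ b : Bool, φ (L * sg b) = (φ L + φ (-L)) / 2 + (φ L - φ (-L)) / 2 * sg b := by
    intro b
    cases b <;> simp [sg] <;> ring
  have e1 : ∀ x, φ (L * sg (g x)) * tot x =
      (φ L + φ (-L)) / 2 * tot x + (φ L - φ (-L)) / 2 * (sg (g x) * tot x) := fun x => by
    rw [e]; ring
  have e2 : ∀ x, φ (L * sg (g x)) * (L * sg (g x)) =
      (φ L + φ (-L)) / 2 * L * sg (g x) + (φ L - φ (-L)) / 2 * L := fun x => by
    rw [e]; linear_combination ((φ L - φ (-L)) / 2 * L) * sg_mul_self (g x)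
  simp only [e1, e2, av_add, av_const_mul, av_const, hg, hL]
  rw [av_tot]
  ring

/-- there is a Boolean function of degree at most `d` with level-one sum at least `L` -/
def Bo (d : ℕ) (L : ℝ) : Prop :=
  ∃ (ι : Type) (_ : Fintype ι) (_ : DecidableEq ι) (f : (ι → Bool) → Bool),
    (fun x => sg (f x)) ∈ V ι d ∧ L ≤ av (fun x => sg (f x) * tot x)

lemma exists_pow : ∃ D : ℕ, 2 ≤ D ∧ ∀ k : ℕ, Bo (D ^ k) ((2 * √D) ^ k) := by
  classical
  obtain ⟨ι, _, _, D, g, hD, hg, h0, hL⟩ := exists_balanced
  refine ⟨D, hD, fun k => ?_⟩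
  have hD0 : 0 < 2 * √(D : ℝ) := by
    have : (0 : ℝ) < D := by exact_mod_cast (by omega : 0 < D)
    positivity
  set L := av (fun x => sg (g x) * tot x) with hLdef
  have hL0 : 0 < L := hD0.trans_le hL
  induction k with
  | zero =>
    refine ⟨Unit, inferInstance, inferInstance, fun x => x (), sg_coord_mem (), ?_⟩
    simp [tot, sg_mul_self, av_const]
  | succ k ih =>
    obtain ⟨κ, _, _, f, hf, hf'⟩ := ih
    refine ⟨κ × ι, inferInstance, inferInstance, fun x => f (fun j => g (blk x j)), ?_, ?_⟩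
    · rw [pow_succ]
      exact V_subst (f := fun x => sg (f x)) hf (fun x j => g (blk x j))
        (fun j => V_comap (f := fun x => sg (g x)) hg (fun i => (j, i)))
    · have hb : ∀ b : Bool, decide (0 < L * sg b) = b := by
        intro b
        cases b <;> simp [sg, hL0, hL0.le]
      have h1 := cond_blocks (κ := κ) (cond_bal g h0 hLdef.symm)
        (fun w => sg (f (fun j => decide (0 < w j))))
      simp only [hb, ← Finset.mul_sum] at h1
      have h2 := av_push g h0 (fun u : κ → Bool => sg (f u) * tot u)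
      have h3 : ∀ y : κ → ι → Bool, sg (f fun j => g (y j)) * (L * ∑ j, sg (g (y j))) =
          L * (sg (f fun j => g (y j)) * tot (fun j => g (y j))) := fun y => by
        simp only [tot]; ring
      simp only [h3, av_const_mul] at h1
      rw [h1, h2, pow_succ']
      exact mul_le_mul hL hf' (by positivity) hL0.le

theorem poly_lower : ∃ ε c : ℝ, 0 < ε ∧ 0 < c ∧ ∀ d : ℕ, 1 ≤ d → ∃ n : ℕ, 1 ≤ n ∧
    ∃ f : (Fin n → Bool) → ℝ, (∀ x, f x = 1 ∨ f x = -1) ∧ deg f ≤ d ∧
      c * (d : ℝ) ^ (1 / 2 + ε) ≤ ∑ i, coeff f {i} := by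
  obtain ⟨D, hD, H⟩ := exists_pow
  have hD1 : (1 : ℝ) < D := by exact_mod_cast (by omega : 1 < D)
  have hD0 : (0 : ℝ) < D := by linarith
  set ε := Real.logb D 2 with hε
  have hε0 : 0 < ε := Real.logb_pos hD1 one_lt_two
  have e1 : (D : ℝ) ^ (1 / 2 + ε) = 2 * √D := by
    rw [Real.rpow_add hD0, hε, Real.rpow_logb hD0 hD1.ne' two_pos, Real.sqrt_eq_rpow, mul_comm]
  refine ⟨ε, ((D : ℝ) ^ (1 / 2 + ε))⁻¹, hε0, by positivity, fun d hd => ?_⟩
  obtain ⟨ι, _, _, f, hf, hL⟩ := H (Nat.log D d)
  obtain ⟨g, h1, h2, h3⟩ := transfer hf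
  have h4 : ((D : ℝ) ^ (1 / 2 + ε))⁻¹ * (d : ℝ) ^ (1 / 2 + ε) ≤ (2 * √D) ^ Nat.log D d := by
    have h5 : (d : ℝ) ≤ (D : ℝ) ^ (Nat.log D d + 1) := by
      exact_mod_cast (Nat.lt_pow_succ_log_self (by omega) d).le
    rw [inv_mul_le_iff₀ (by positivity), ← e1, ← pow_succ', ← Real.rpow_natCast,
      ← Real.rpow_mul hD0.le, mul_comm, Real.rpow_mul hD0.le, Real.rpow_natCast]
    exact Real.rpow_le_rpow (Nat.cast_nonneg d) h5 (by positivity)
  refine ⟨_, ?_, g, fun x => ?_, h2.trans (Nat.pow_log_le_self D (by omega)), ?_⟩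
  · by_contra h
    have h0 : Fintype.card ι = 0 := by omega
    have : IsEmpty ι := Fintype.card_eq_zero_iff.1 h0
    have : 0 < (2 * √(D : ℝ)) ^ Nat.log D d := by positivity
    simp only [tot, Finset.univ_eq_empty, Finset.sum_empty, mul_zero, av_const] at hL
    linarith
  · obtain ⟨y, hy⟩ := h1 x
    rw [hy]
    exact sg_cases _
  · rw [h3]
    exact h4.trans hL

end Vale.Agent.P047b
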